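import Mathlib

/-! Mod-2 cochains on finite lists, and chains as additive functionals on cochains. -/

namespace Vale.Agent.P052

abbrev Z2 := ZMod 2

/-- cochains -/
abbrev Co (X : Type*) := List X → Z2

theorem z2_add_self (a : Z2) : a + a = 0 := CharTwo.add_self_eq_zero a

theorem z2_cases (a : Z2) : a = 0 ∨ a = 1 := by
  revert a; decide

/-- coboundary -/
def cobd {X : Type*} : Co X → Co X
  | _, [] => 0
  | Θ, a :: l => Θ l + cobd (fun m => Θ (a :: m)) l

variable {X Y : Type*}

@[simp] theorem cobd_nil (Θ : Co X) : cobd Θ [] = 0 := rfl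

theorem cobd_cons (Θ : Co X) (a : X) (l : List X) :
    cobd Θ (a :: l) = Θ l + cobd (fun m => Θ (a :: m)) l := rfl

theorem cobd_add (Θ Φ : Co X) (l : List X) :
    cobd (fun m => Θ m + Φ m) l = cobd Θ l + cobd Φ l := by
  induction l generalizing Θ Φ with
  | nil => simp
  | cons a l ih => simp only [cobd_cons]; rw [ih]; ring

theorem cobd_zero (l : List X) : cobd (fun _ => (0 : Z2)) l = 0 := by
  induction l with
  | nil => simp
  | cons a l ih => simp only [cobd_cons, ih, add_zero]

theorem cobd_mul (k : Z2) (Θ : Co X) (l : List X) :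
    cobd (fun m => k * Θ m) l = k * cobd Θ l := by
  induction l generalizing Θ with
  | nil => simp
  | cons a l ih => simp only [cobd_cons]; rw [ih]; ring

theorem cobd_congr {Θ Φ : Co X} {l : List X}
    (h : ∀ m : List X, m.Sublist l → m.length + 1 = l.length → Θ m = Φ m) :
    cobd Θ l = cobd Φ l := by
  induction l generalizing Θ Φ with
  | nil => simp
  | cons a l ih =>
    simp only [cobd_cons]
    rw [h l (List.sublist_cons_self a l) rfl, ih]
    intro m hm hl
    exact h _ (hm.cons_cons a) (by simp [hl])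

theorem cobd_eq_zero {Θ : Co X} {l : List X}
    (h : ∀ m : List X, m.Sublist l → m.length + 1 = l.length → Θ m = 0) :
    cobd Θ l = 0 := by
  rw [cobd_congr h, cobd_zero]

theorem cobd_cobd (Θ : Co X) (l : List X) : cobd (cobd Θ) l = 0 := by
  induction l generalizing Θ with
  | nil => simp
  | cons a l ih =>
    rw [cobd_cons]
    have : (fun m => cobd Θ (a :: m)) = fun m => Θ m + cobd (fun m' => Θ (a :: m')) m := rfl
    rw [this, cobd_add, ih, add_zero]
    exact z2_add_self _

theorem cobd_map (g : X → Y) (Θ : Co Y) (l : List X) :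
    cobd (fun m => Θ (m.map g)) l = cobd Θ (l.map g) := by
  induction l generalizing Θ with
  | nil => simp
  | cons a l ih =>
    simp only [cobd_cons, List.map_cons]
    rw [ih (fun m => Θ (g a :: m))]

/-- prism operator -/
def prism (f g : X → Y) : Co Y → Co X
  | _, [] => 0
  | Θ, a :: l => Θ (f a :: g a :: l.map g) + prism f g (fun m => Θ (f a :: m)) l

theorem prism_cons (f g : X → Y) (Θ : Co Y) (a : X) (l : List X) :
    prism f g Θ (a :: l) = Θ (f a :: g a :: l.map g) + prism f g (fun m => Θ (f a :: m)) l := rfl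

theorem prism_add (f g : X → Y) (Θ Φ : Co Y) (l : List X) :
    prism f g (fun m => Θ m + Φ m) l = prism f g Θ l + prism f g Φ l := by
  induction l generalizing Θ Φ with
  | nil => simp [prism]
  | cons a l ih => simp only [prism_cons]; rw [ih]; ring

theorem prism_eq_zero (f g : X → Y) {Θ : Co Y} {l : List X}
    (h : ∀ m : List Y, m.length = l.length + 1 → (∀ y ∈ m, ∃ a ∈ l, y = f a ∨ y = g a) →
      Θ m = 0) : prism f g Θ l = 0 := by
  induction l generalizing Θ with
  | nil => simp [prism]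
  | cons a l ih =>
    rw [prism_cons, h, ih, add_zero]
    · intro m hl hm
      apply h
      · simp [hl]
      · intro y hy
        rcases List.mem_cons.1 hy with rfl | hy
        · exact ⟨a, by simp, Or.inl rfl⟩
        · obtain ⟨b, hb, hb'⟩ := hm y hy
          exact ⟨b, by simp [hb], hb'⟩
    · simp
    · intro y hy
      simp only [List.mem_cons, List.mem_map] at hy
      rcases hy with rfl | rfl | ⟨b, hb, rfl⟩
      · exact ⟨a, by simp, Or.inl rfl⟩
      · exact ⟨a, by simp, Or.inr rfl⟩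
      · exact ⟨b, by simp [hb], Or.inr rfl⟩

theorem prism_cobd (f g : X → Y) (Θ : Co Y) (l : List X) :
    prism f g (cobd Θ) l = cobd (prism f g Θ) l + Θ (l.map f) + Θ (l.map g) := by
  induction l generalizing Θ with
  | nil => simp [prism, z2_add_self]
  | cons a l ih =>
    have e1 : (fun m => cobd Θ (f a :: m)) = fun m => Θ m + cobd (fun m' => Θ (f a :: m')) m := rfl
    have e2 : (fun m => prism f g Θ (a :: m)) =
        fun m => Θ (f a :: g a :: m.map g) + prism f g (fun m' => Θ (f a :: m')) m := rfl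
    rw [prism_cons, e1, prism_add, ih, cobd_cons, cobd_cons, cobd_cons (prism f g Θ), e2, cobd_add,
      cobd_map g (fun m => Θ (f a :: g a :: m))]
    simp only [List.map_cons]
    have h2 : (2 : Z2) = 0 := rfl
    linear_combination (Θ (f a :: List.map g l)) * h2

/-- chains -/
abbrev Ch (X : Type*) := Co X →+ Z2

/-- `Z` is supported on lists with property `P`. -/
def Supp (P : List X → Prop) (Z : Ch X) : Prop :=
  ∀ Θ : Co X, (∀ l, P l → Θ l = 0) → Z Θ = 0

/-- `Z` is a cycle. -/
def IsCyc (Z : Ch X) : Prop := ∀ Θ : Co X, Z (cobd Θ) = 0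

theorem Supp.congr {P : List X → Prop} {Z : Ch X} (h : Supp P Z) {Θ Φ : Co X}
    (e : ∀ l, P l → Θ l = Φ l) : Z Θ = Z Φ := by
  have : Z (Θ + Φ) = 0 := h _ fun l hl => by
    simp only [Pi.add_apply, e l hl, z2_add_self]
  rw [map_add] at this
  have h2 : (2 : Z2) = 0 := rfl
  linear_combination this - (Z Φ) * h2

theorem Supp.mono {P Q : List X → Prop} {Z : Ch X} (h : Supp P Z) (e : ∀ l, P l → Q l) :
    Supp Q Z := fun Θ hΘ => h Θ fun l hl => hΘ l (e l hl)

theorem Supp.exists {P : List X → Prop} {Z : Ch X} (h : Supp P Z) {Θ : Co X} (e : Z Θ ≠ 0) :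
    ∃ l, P l ∧ Θ l ≠ 0 := by
  by_contra hc
  push Not at hc
  exact e (h Θ hc)

theorem ch_add (Z : Ch X) (Θ Φ : Co X) : Z (fun l => Θ l + Φ l) = Z Θ + Z Φ :=
  map_add Z Θ Φ

/-- chain built from an additive operator on cochains -/
def Ch.comp (Z : Ch X) (T : Co Y → Co X)
    (hT : ∀ Θ Φ l, T (fun m => Θ m + Φ m) l = T Θ l + T Φ l) : Ch Y :=
  AddMonoidHom.mk' (fun Θ => Z (T Θ)) (by
    intro Θ Φ
    rw [← ch_add]
    congr 1
    funext l
    exact hT Θ Φ l)

@[simp] theorem Ch.comp_apply (Z : Ch X) (T : Co Y → Co X) (hT) (Θ : Co Y) :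
    Z.comp T hT Θ = Z (T Θ) := rfl

/-- push-forward -/
def Ch.push (Z : Ch X) (g : X → Y) : Ch Y :=
  Ch.comp Z (fun Θ l => Θ (l.map g)) (fun _ _ _ => rfl)

@[simp] theorem Ch.push_apply (Z : Ch X) (g : X → Y) (Θ : Co Y) :
    Z.push g Θ = Z (fun l => Θ (l.map g)) := rfl

theorem IsCyc.push {Z : Ch X} (h : IsCyc Z) (g : X → Y) : IsCyc (Z.push g) := by
  intro Θ
  rw [Ch.push_apply, ← h (fun l => Θ (l.map g))]
  congr 1
  funext l
  rw [cobd_map]

theorem Supp.push {P : List X → Prop} {Q : List Y → Prop} {Z : Ch X} (h : Supp P Z) (g : X → Y)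
    (e : ∀ l, P l → Q (l.map g)) : Supp Q (Z.push g) :=
  fun _ hΘ => h _ fun l hl => hΘ _ (e l hl)

section Fill

variable {V : Type*} [NormedAddCommGroup V] [NormedSpace ℝ V]

/-- lists of length `k` of points of `A` at mutual distance at most `r` -/
def Sm (A : Set V) (r : ℝ) (k : ℕ) (l : List V) : Prop :=
  l.length = k ∧ (∀ a ∈ l, a ∈ A) ∧ ∀ a ∈ l, ∀ b ∈ l, ‖a - b‖ ≤ r

omit [NormedSpace ℝ V] in
theorem homotopy {A B : Set V} {r ε : ℝ} {k : ℕ} {z : Ch V} (hz : Supp (Sm A r k) z)
    (hc : IsCyc z) (hε : 0 ≤ ε) (g : ℕ → V → V) (n : ℕ)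
    (h1 : ∀ j ≤ n, ∀ a ∈ A, g j a ∈ B)
    (h2 : ∀ j ≤ n, ∀ a b, ‖g j a - g j b‖ ≤ ‖a - b‖)
    (h3 : ∀ j < n, ∀ a ∈ A, ‖g j a - g (j + 1) a‖ ≤ ε) :
    ∃ β : Ch V, Supp (Sm B (r + ε) (k + 1)) β ∧
      ∀ Θ, β (cobd Θ) = z (fun l => Θ (l.map (g 0))) + z (fun l => Θ (l.map (g n))) := by
  induction n with
  | zero => exact ⟨0, fun _ _ => rfl, fun Θ => by simp [z2_add_self]⟩
  | succ n ih =>
    obtain ⟨β, hβ, hb⟩ := ih (fun j hj => h1 j (by omega)) (fun j hj => h2 j (by omega))
      (fun j hj => h3 j (by omega))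
    refine ⟨β + z.comp (prism (g n) (g (n + 1))) (prism_add _ _), ?_, ?_⟩
    · intro Θ hΘ
      rw [AddMonoidHom.add_apply, hβ Θ hΘ, zero_add, Ch.comp_apply]
      apply hz
      rintro l ⟨hl, hA, hr⟩
      apply prism_eq_zero
      intro m hm hm'
      apply hΘ
      refine ⟨by rw [hm, hl], ?_, ?_⟩
      · intro y hy
        obtain ⟨a, ha, rfl | rfl⟩ := hm' y hy
        · exact h1 _ (by omega) _ (hA a ha)
        · exact h1 _ (by omega) _ (hA a ha)
      · intro y hy y' hy'
        obtain ⟨a, ha, e⟩ := hm' y hy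
        obtain ⟨b, hb, e'⟩ := hm' y' hy'
        have hab := hr a ha b hb
        rcases e with rfl | rfl <;> rcases e' with rfl | rfl
        · linarith [h2 n (by omega) a b]
        · have := norm_sub_le_norm_sub_add_norm_sub (g n a) (g n b) (g (n + 1) b)
          linarith [h2 n (by omega) a b, h3 n (by omega) b (hA b hb)]
        · have := norm_sub_le_norm_sub_add_norm_sub (g (n + 1) a) (g n a) (g n b)
          have e := norm_sub_rev (g (n + 1) a) (g n a)
          linarith [h2 n (by omega) a b, h3 n (by omega) a (hA a ha)]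
        · linarith [h2 (n + 1) (by omega) a b]
    · intro Θ
      rw [AddMonoidHom.add_apply, hb, Ch.comp_apply]
      have : prism (g n) (g (n + 1)) (cobd Θ) = fun l =>
          (cobd (prism (g n) (g (n + 1)) Θ) l + Θ (l.map (g n))) + Θ (l.map (g (n + 1))) := by
        funext l; rw [prism_cobd]
      rw [this, ch_add, ch_add, hc]
      have h2 : (2 : Z2) = 0 := rfl
      linear_combination (z fun l => Θ (l.map (g n))) * h2

theorem fill {A B : Set V} {r ε : ℝ} {k : ℕ} {z : Ch V} (hz : Supp (Sm A r k) z)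
    (hc : IsCyc z) (hε : 0 < ε) (hr : 0 ≤ r) (p : V) (hp : p ∈ B) (hA : ∀ a ∈ A, ‖a - p‖ ≤ 2)
    (hB : ∀ a ∈ A, ∀ t : ℝ, 0 ≤ t → t ≤ 1 → (1 - t) • a + t • p ∈ B) :
    ∃ β : Ch V, Supp (Sm B (r + ε) (k + 1)) β ∧ ∀ Θ, β (cobd Θ) = z Θ := by
  obtain ⟨n, hn⟩ := exists_nat_gt (2 / ε)
  have hn0 : (0 : ℝ) < n := lt_trans (by positivity) hn
  obtain ⟨β, hβ, hb⟩ := homotopy (B := B) hz hc hε.le
    (fun j a => (1 - (j : ℝ) / n) • a + ((j : ℝ) / n) • p) n
    (fun j hj a ha => hB a ha _ (by positivity)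
      (by rw [div_le_one hn0]; exact_mod_cast hj))
    (fun j hj a b => by
      have h1 : (j : ℝ) / n ≤ 1 := by rw [div_le_one hn0]; exact_mod_cast hj
      have h0 : (0 : ℝ) ≤ (j : ℝ) / n := by positivity
      have : (1 - (j : ℝ) / n) • a + ((j : ℝ) / n) • p - ((1 - (j : ℝ) / n) • b +
          ((j : ℝ) / n) • p) = (1 - (j : ℝ) / n) • (a - b) := by module
      rw [this, norm_smul, Real.norm_eq_abs, abs_of_nonneg (by linarith)]
      nlinarith [norm_nonneg (a - b)])
    (fun j hj a ha => by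
      have : (1 - (j : ℝ) / n) • a + ((j : ℝ) / n) • p - ((1 - ((j + 1 : ℕ) : ℝ) / n) • a +
          (((j + 1 : ℕ) : ℝ) / n) • p) = (1 / (n : ℝ)) • (a - p) := by
        push_cast
        rw [add_div]
        module
      rw [this, norm_smul, Real.norm_eq_abs, abs_of_pos (by positivity)]
      have h2 := hA a ha
      rw [div_lt_iff₀ hε] at hn
      rw [one_div, inv_mul_le_iff₀ hn0]
      linarith)
  refine ⟨β + z.comp (fun Θ l => Θ (p :: l.map fun _ => p)) (fun _ _ _ => rfl), ?_, ?_⟩
  · intro Θ hΘ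
    rw [AddMonoidHom.add_apply, hβ Θ hΘ, zero_add, Ch.comp_apply]
    apply hz
    rintro l ⟨hl, -, -⟩
    apply hΘ
    refine ⟨by simp [hl], ?_, ?_⟩
    · intro a ha
      have : a = p := by
        simp only [List.mem_cons, List.mem_map] at ha
        rcases ha with rfl | ⟨_, _, rfl⟩ <;> rfl
      rw [this]; exact hp
    · intro a ha b hb
      have e1 : a = p := by
        simp only [List.mem_cons, List.mem_map] at ha
        rcases ha with rfl | ⟨_, _, rfl⟩ <;> rfl
      have e2 : b = p := by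
        simp only [List.mem_cons, List.mem_map] at hb
        rcases hb with rfl | ⟨_, _, rfl⟩ <;> rfl
      rw [e1, e2, sub_self, norm_zero]; linarith
  · intro Θ
    rw [AddMonoidHom.add_apply, hb, Ch.comp_apply]
    have e0 : (fun l : List V => Θ (l.map fun a => (1 - ((0 : ℕ) : ℝ) / n) • a +
        (((0 : ℕ) : ℝ) / n) • p)) = Θ := by
      funext l; simp
    have e1 : (fun l : List V => Θ (l.map fun a => (1 - ((n : ℕ) : ℝ) / n) • a +
        (((n : ℕ) : ℝ) / n) • p)) = fun l => Θ (l.map fun _ => p) := by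
      funext l; simp [hn0.ne']
    have e2 : (fun l : List V => cobd Θ (p :: l.map fun _ => p)) = fun l =>
        Θ (l.map fun _ => p) + cobd (fun m => Θ (p :: m.map fun _ => p)) l := by
      funext l
      rw [cobd_cons, ← cobd_map (fun _ => p) (fun m => Θ (p :: m))]
    rw [e0, e1, e2, ch_add, hc]
    have h2 : (2 : Z2) = 0 := rfl
    linear_combination (z fun l => Θ (l.map fun _ => p)) * h2

end Fill

end Vale.Agent.P052
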