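import Vale.Agent.P052.Four

/-! A small verified unit-propagation checker for clause templates closed under recolouring. -/

namespace Vale.Agent.P052

open scoped RealInnerProductSpace

def lit (F : ℕ → Prop) (x : ℕ) : Prop := F (x / 2) ↔ x % 2 = 0

def Hold (F : ℕ → Prop) (C : ℕ) : Prop := ∃ x, C.testBit x = true ∧ lit F x

def Fals (F : ℕ → Prop) (A : ℕ) : Prop := ∀ x, A.testBit x = true → ¬ lit F x

def ng (x : ℕ) : ℕ := bif Nat.beq (x % 2) 0 then x + 1 else x - 1

theorem lit_ng {F : ℕ → Prop} {x : ℕ} (h : lit F x) : ¬ lit F (ng x) := by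
  unfold lit ng at *
  cases hb : Nat.beq (x % 2) 0
  · have h0 : x % 2 ≠ 0 := Nat.ne_of_beq_eq_false hb
    simp only [cond_false]
    rw [show (x - 1) / 2 = x / 2 by omega, show (x - 1) % 2 = 0 by omega]
    tauto
  · have h0 : x % 2 = 0 := Nat.eq_of_beq_eq_true hb
    simp only [cond_true]
    rw [show (x + 1) / 2 = x / 2 by omega, show (x + 1) % 2 = 1 by omega]
    simp only [h0, iff_true] at h
    simp [h]

def rup (get : ℕ → ℕ) : ℕ → List ℕ → Bool
  | _, [] => false
  | A, h :: t =>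
    bif Nat.beq (h % 4096) 4095 then Nat.beq (get (h / 4096) ||| A) A
    else Nat.beq (get (h / 4096) ||| (A ||| 2 ^ (h % 4096))) (A ||| 2 ^ (h % 4096)) &&
      rup get (A ||| 2 ^ ng (h % 4096)) t

theorem rup_sound {F : ℕ → Prop} {get : ℕ → ℕ} (hg : ∀ r, Hold F (get r)) {A : ℕ} {L : List ℕ}
    (h : rup get A L = true) : ¬ Fals F A := by
  induction L generalizing A with
  | nil => simp [rup] at h
  | cons a t ih =>
    intro hA
    obtain ⟨x, hx, hl⟩ := hg (a / 4096)
    rw [rup] at h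
    cases hb : Nat.beq (a % 4096) 4095
    · rw [hb, cond_false, Bool.and_eq_true] at h
      have e := Nat.eq_of_beq_eq_true h.1
      have h1 : (A ||| 2 ^ (a % 4096)).testBit x = true := by
        rw [← e, Nat.testBit_or, hx, Bool.true_or]
      rw [Nat.testBit_or, Bool.or_eq_true, Nat.testBit_two_pow, decide_eq_true_eq] at h1
      rcases h1 with h1 | h1
      · exact hA x h1 hl
      · apply ih h.2
        intro y hy
        rw [Nat.testBit_or, Bool.or_eq_true, Nat.testBit_two_pow, decide_eq_true_eq] at hy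
        rcases hy with hy | hy
        · exact hA y hy
        · rw [← hy, h1]; exact lit_ng hl
    · rw [hb, cond_true] at h
      have e := Nat.eq_of_beq_eq_true h
      apply hA x _ hl
      rw [← e, Nat.testBit_or, hx, Bool.true_or]

inductive Tr : Type
  | lf (c : ℕ) : Tr
  | nd (l r : Tr) : Tr

def Tr.get : Tr → ℕ → ℕ
  | .lf c, _ => c
  | .nd l r, n => bif Nat.beq (n % 2) 0 then l.get (n / 2) else r.get (n / 2)

/-- decode a clause written in base 4096 (literal plus one) -/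
def dec : ℕ → ℕ → ℕ
  | 0, _ => 0
  | f + 1, e => bif Nat.beq e 0 then 0 else 2 ^ (e % 4096 - 1) ||| dec f (e / 4096)

def getc (gen : ℕ → ℕ) (tr : Tr) (i r : ℕ) : ℕ :=
  bif Nat.beq (r % 2) 0 then gen (r / 2)
  else bif Nat.blt (r / 2) i then dec 100 (tr.get (r / 2)) else 3

def chk (gen : ℕ → ℕ) (A : ℕ) (tr : Tr) : ℕ → List (List ℕ) → Bool
  | _, [] => true
  | i, hs :: rest => rup (getc gen tr i) (dec 100 (tr.get i) ||| A) hs && chk gen A tr (i + 1) rest

theorem hold_three (F : ℕ → Prop) : Hold F 3 := by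
  by_cases h : F 0
  · exact ⟨0, by decide, by simp [lit, h]⟩
  · exact ⟨1, by decide, by simp [lit, h]⟩

theorem chk_sound {F : ℕ → Prop} {gen : ℕ → ℕ} (hg : ∀ r, Hold F (gen r)) {A : ℕ} (hA : Fals F A)
    {tr : Tr} {L : List (List ℕ)} {i : ℕ} (hi : ∀ j < i, Hold F (dec 100 (tr.get j)))
    (h : chk gen A tr i L = true) : ∀ j < i + L.length, Hold F (dec 100 (tr.get j)) := by
  induction L generalizing i with
  | nil => simpa using hi
  | cons hs rest ih =>
    rw [chk, Bool.and_eq_true] at h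
    have h1 : Hold F (dec 100 (tr.get i)) := by
      have := rup_sound (F := F) (fun r => by
        unfold getc
        cases Nat.beq (r % 2) 0
        · cases hb : Nat.blt (r / 2) i
          · exact hold_three F
          · exact hi _ (by simpa using hb)
        · exact hg _) h.1
      by_contra hc
      apply this
      intro x hx
      rw [Nat.testBit_or, Bool.or_eq_true] at hx
      rcases hx with hx | hx
      · exact fun hl => hc ⟨x, hx, hl⟩
      · exact hA x hx
    intro j hj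
    refine ih (i := i + 1) (fun k hk => ?_) h.2 j (by simp at hj; omega)
    rcases Nat.lt_succ_iff_lt_or_eq.1 hk with hk | rfl
    · exact hi k hk
    · exact h1

abbrev Tm := List (Bool × List ℕ)

def mk : List ℕ → ℕ
  | [] => 0
  | a :: l => 2 ^ a ||| mk l

theorem testBit_mk (l : List ℕ) (i : ℕ) : (mk l).testBit i = true ↔ i ∈ l := by
  induction l with
  | nil => simp [mk]
  | cons a l ih =>
    rw [mk, Nat.testBit_or, Bool.or_eq_true, Nat.testBit_two_pow, decide_eq_true_eq, ih,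
      List.mem_cons, eq_comm]

def dig (d i : ℕ) : ℕ := d / 10 ^ i % 10

def inst (π : ℕ → ℕ) : Tm → ℕ
  | [] => 0
  | x :: t => 2 ^ (2 * mk (x.2.map π) + bif x.1 then 0 else 1) ||| inst π t

theorem testBit_inst (π : ℕ → ℕ) (t : Tm) (y : ℕ) : (inst π t).testBit y = true ↔
    ∃ x ∈ t, y = 2 * mk (x.2.map π) + bif x.1 then 0 else 1 := by
  induction t with
  | nil => simp [inst]
  | cons a l ih =>
    rw [inst, Nat.testBit_or, Bool.or_eq_true, Nat.testBit_two_pow, decide_eq_true_eq, ih]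
    simp only [List.mem_cons, exists_eq_or_imp]
    rw [eq_comm]

def gen (ts : List Tm) (r : ℕ) : ℕ :=
  bif Nat.beq (mk ([0, 1, 2, 3, 4, 5, 6, 7, 8, 9].map (dig (r / 10)))) 1023 then
    inst (dig (r / 10)) (ts.getD (r % 10) [(true, []), (false, [])])
  else 3

def Fm (c : Eu 4 → ℕ) (δ : ℝ) (m : ℕ) : Prop := Face c δ fun i => m.testBit i = true

def TV (t : Tm) : Prop := (∀ x ∈ t, ∀ i ∈ x.2, i < 10) ∧
  ∀ c δ, Col c δ → ∃ x ∈ t, (Face c δ (· ∈ x.2) ↔ x.1 = true)

theorem lit_inst (c : Eu 4 → ℕ) (δ : ℝ) (l : List ℕ) (s : Bool) :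
    lit (Fm c δ) (2 * mk l + bif s then 0 else 1) ↔ (Face c δ (· ∈ l) ↔ s = true) := by
  have e : (fun i => (mk l).testBit i = true) = (· ∈ l) := by
    funext i; exact propext (testBit_mk l i)
  cases s
  · simp only [lit, Fm, cond_false]
    rw [show (2 * mk l + 1) / 2 = mk l by omega, show (2 * mk l + 1) % 2 = 1 by omega, e]
    simp
  · simp only [lit, Fm, cond_true]
    rw [show (2 * mk l + 0) / 2 = mk l by omega, show (2 * mk l + 0) % 2 = 0 by omega, e]
    simp

theorem recolor {c : Eu 4 → ℕ} {δ : ℝ} (hc : Col c δ) {π : ℕ → ℕ} (h1 : ∀ i < 10, π i < 10)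
    (h2 : ∀ j < 10, ∃ i < 10, π i = j) {t : Tm} (ht : TV t) :
    ∃ x ∈ t, (Face c δ (· ∈ x.2.map π) ↔ x.1 = true) := by
  have hinj : ∀ i < 10, ∀ j < 10, π i = π j → i = j := by
    have : Function.Injective (fun i : Fin 10 => (⟨π i, h1 i i.2⟩ : Fin 10)) := by
      apply Finite.injective_iff_surjective.2
      intro j
      obtain ⟨i, hi, e⟩ := h2 j j.2
      exact ⟨⟨i, hi⟩, Fin.ext e⟩
    intro i hi j hj e
    have := this (a₁ := ⟨i, hi⟩) (a₂ := ⟨j, hj⟩) (Fin.ext e)
    simpa using this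
  have : ∀ j, ∃ i, j < 10 → i < 10 ∧ π i = j := by
    intro j
    by_cases hj : j < 10
    · obtain ⟨i, hi⟩ := h2 j hj
      exact ⟨i, fun _ => hi⟩
    · exact ⟨0, fun h => absurd h hj⟩
  choose g hg using this
  have hc' : Col (fun v => g (c v)) δ := by
    refine ⟨⟨fun v => by rw [hc.valid.even], fun v w hv hw e => hc.valid.sep v w hv hw ?_⟩,
      hc.pos, hc.le_one, fun v hv => (hg _ (hc.lt v hv)).1⟩
    rw [← (hg _ (hc.lt v hv)).2, ← (hg _ (hc.lt w hw)).2, e]
  obtain ⟨x, hx, hx'⟩ := ht.2 _ _ hc'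
  refine ⟨x, hx, Iff.trans ?_ hx'⟩
  constructor
  · rintro ⟨y, hy, hy'⟩
    refine ⟨y, hy, fun v hv hh => hy' v hv ?_⟩
    exact List.mem_map.2 ⟨_, hh, (hg _ (hc.lt v hv)).2⟩
  · rintro ⟨y, hy, hy'⟩
    refine ⟨y, hy, fun v hv hh => hy' v hv ?_⟩
    obtain ⟨i, hi, e⟩ := List.mem_map.1 hh
    have := hinj _ (hg _ (hc.lt v hv)).1 i (ht.1 x hx i hi) (by rw [(hg _ (hc.lt v hv)).2, e])
    simp only [this]
    exact hi

theorem TV_triv : TV [(true, []), (false, [])] := by
  refine ⟨by simp, fun c δ _ => ?_⟩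
  by_cases h : Face c δ (· ∈ ([] : List ℕ))
  · exact ⟨(true, []), by simp, by simpa using h⟩
  · exact ⟨(false, []), by simp, by simpa using h⟩

theorem gen_sound {ts : List Tm} (hts : ∀ t ∈ ts, TV t) {c : Eu 4 → ℕ} {δ : ℝ} (hc : Col c δ)
    (r : ℕ) : Hold (Fm c δ) (gen ts r) := by
  unfold gen
  cases hb : Nat.beq (mk ([0, 1, 2, 3, 4, 5, 6, 7, 8, 9].map (dig (r / 10)))) 1023
  · exact hold_three _
  · have e := Nat.eq_of_beq_eq_true hb
    have ht : TV (ts.getD (r % 10) [(true, []), (false, [])]) := by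
      rw [List.getD_eq_getElem?_getD]
      cases h : ts[r % 10]? with
      | none => exact TV_triv
      | some t => exact hts t (List.mem_of_getElem? h)
    obtain ⟨x, hx, hx'⟩ := recolor hc (π := dig (r / 10))
      (fun i _ => Nat.mod_lt _ (by norm_num)) (fun j hj => by
        have : (1023 : ℕ).testBit j = true := by interval_cases j <;> decide
        rw [← e, testBit_mk] at this
        obtain ⟨i, hi, e'⟩ := List.mem_map.1 this
        refine ⟨i, ?_, e'⟩
        simp only [List.mem_cons, List.not_mem_nil, or_false] at hi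
        omega) ht
    exact ⟨_, (testBit_inst _ _ _).2 ⟨x, hx, rfl⟩, (lit_inst _ _ _ _).2 hx'⟩

theorem chk_final {ts : List Tm} (hts : ∀ t ∈ ts, TV t) {t : Tm}
    (ht : ∀ x ∈ t, ∀ i ∈ x.2, i < 10) {tr : Tr} {L : List (List ℕ)}
    (h : chk (gen ts) (inst id t) tr 0 L = true) {n : ℕ} (hn : n < L.length)
    (h0 : tr.get n = 0) : TV t := by
  refine ⟨ht, fun c δ hc => ?_⟩
  by_contra hno
  have hA : Fals (Fm c δ) (inst id t) := by
    intro y hy hl
    obtain ⟨x, hx, rfl⟩ := (testBit_inst _ _ _).1 hy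
    rw [lit_inst, List.map_id] at hl
    exact hno ⟨x, hx, hl⟩
  obtain ⟨x, hx, -⟩ := chk_sound (gen_sound hts hc) hA (i := 0) (by simp) h n (by simpa using hn)
  rw [h0, show dec 100 0 = 0 from rfl, Nat.zero_testBit] at hx
  exact absurd hx (by decide)

def T0 : Tm := [(false, [0, 1, 2, 3]), (true, [0, 1, 2])]
def T1 : Tm := [(false, [0, 1, 2, 3]), (false, [4, 5, 6, 7])]
def T2 : Tm := [(false, [0, 1, 2, 3]), (false, [4, 5, 6]), (false, [7, 8, 9])]
def T3 : Tm := [(false, [0, 1, 2, 3]), (true, [4, 5, 6]), (true, [7, 8, 9])]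
def T4 : Tm := [(false, [0, 1, 2, 3]), (false, [6, 4, 5]), (true, [7, 4, 5]), (true, [8, 4, 5]),
  (true, [9, 4, 5])]
def T5 : Tm := [(false, [0, 1, 2, 3]), (false, [6, 4, 5]), (false, [7, 4, 5]), (false, [8, 4, 5]),
  (true, [9, 4, 5])]
def T6 : Tm := [(false, [0, 1, 2, 3]), (false, [4, 5, 6]), (true, [0, 4, 5, 6]),
  (true, [1, 4, 5, 6]), (true, [2, 4, 5, 6]), (true, [3, 4, 5, 6])]

theorem TV0 : TV T0 := by
  refine ⟨by decide, fun c δ _ => ?_⟩
  by_contra h
  simp only [T0, List.mem_cons, List.not_mem_nil, or_false, exists_eq_or_imp, exists_eq_left,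
    Bool.false_eq_true, iff_false, iff_true, not_or, not_not] at h
  exact h.2 (h.1.mono (by tauto))

theorem TV1 : TV T1 := by
  refine ⟨by decide, fun c δ hc => ?_⟩
  by_contra h
  simp only [T1, List.mem_cons, List.not_mem_nil, or_false, exists_eq_or_imp, exists_eq_left,
    Bool.false_eq_true, iff_false, not_or, not_not] at h
  exact two_faces hc h.1 h.2 8 9 (by intro i hi; omega)

theorem TV2 : TV T2 := by
  refine ⟨by decide, fun c δ hc => ?_⟩
  by_contra h
  simp only [T2, List.mem_cons, List.not_mem_nil, or_false, exists_eq_or_imp, exists_eq_left,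
    Bool.false_eq_true, iff_false, not_or, not_not] at h
  exact three_faces hc h.1 h.2.1 h.2.2 (by intro i hi; omega)

theorem plane2 {c : Eu 4 → ℕ} {δ : ℝ} (hc : Col c δ)
    (hS : Face c δ fun i => i = 0 ∨ i = 1 ∨ i = 2 ∨ i = 3) :
    ∃ N : Finset ℕ → Z2, (∀ a : Fin 6 → ℕ, Function.Injective a →
      (∀ j, 4 ≤ j → j < 10 → ∃ i, a i = j) → N {a 0, a 1, a 2} + N {a 3, a 4, a 5} = 1 ∧
        ((Face c δ fun i => i = a 0 ∨ i = a 1 ∨ i = a 2) ↔ N {a 0, a 1, a 2} = 1)) ∧
      N {6, 4, 5} + N {7, 4, 5} + N {8, 4, 5} + N {9, 4, 5} = 0 ∧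
      ∀ τ : Finset ℕ, N τ = 1 → Face c δ (· ∈ τ) →
        ∃ i < 10, i ∉ τ ∧ Face c δ (· ∈ insert i τ) := by
  have hδ := hc.pos
  obtain ⟨x, hx⟩ := id hS
  obtain ⟨ζ, hζ, hcy, hk⟩ := plane hc.pos hc.le_one hx.1
  have hcol : ∀ y : Eu 4, ‖y‖ = 1 → ⟪y, x⟫ = 0 → 4 ≤ c y ∧ c y < 10 := by
    intro y hy ho
    refine ⟨?_, hc.lt y hy⟩
    by_contra hh
    have := hx.2 y hy (by omega)
    rw [real_inner_comm, ho, abs_zero] at this
    linarith
  have hF : ∀ S : Finset ℕ, S.Nonempty → ζ (fun p => chi S (p.map c)) ≠ 0 → Face c δ (· ∈ S) := by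
    intro S hS hne
    obtain ⟨l, ⟨-, h1, h2⟩, h3⟩ := hζ.exists hne
    exact face_of_chi hc.valid (by linarith) hS (fun v hv => (h1 v hv).1) h2 h3
  refine ⟨fun S => ζ fun p => chi S (p.map c), fun a ha hcov => ?_, ?_, ?_⟩
  · have key := hk c hc.valid a ha fun y hy ho => hcov _ (hcol y hy ho).1 (hcol y hy ho).2
    refine ⟨key, fun hf => ?_, fun h => ?_⟩
    · have : ζ (fun p => chi {a 3, a 4, a 5} (p.map c)) = 0 := by
        by_contra hne
        refine three_faces hc hS hf (hF _ (by simp) hne) fun i hi => ?_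
        by_cases h4 : 4 ≤ i
        · obtain ⟨j, rfl⟩ := hcov i h4 hi
          fin_cases j <;> simp
        · omega
      rw [this, add_zero] at key
      exact key
    · exact (hF {a 0, a 1, a 2} (by simp) (h.trans_ne one_ne_zero)).mono (by simp)
  · have := hcy fun p => chi {4, 5} (p.map c)
    rw [← this]
    simp only
    rw [← ch_add, ← ch_add, ← ch_add]
    apply hζ.congr
    rintro l ⟨-, h1, -⟩
    rw [cobd_map c (chi {4, 5}), cobd_chi {4, 5, 6, 7, 8, 9},
      show ({4, 5, 6, 7, 8, 9} : Finset ℕ) \ {4, 5} = {6, 7, 8, 9} by decide]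
    · simp only [Finset.mem_insert, Finset.mem_singleton, Nat.reduceEqDiff, or_self,
        not_false_eq_true, Finset.sum_insert, Finset.sum_singleton, add_assoc]
    · intro i hi
      obtain ⟨v, hv, rfl⟩ := List.mem_map.1 hi
      have := hcol v (h1 v hv).1 (h1 v hv).2
      simp only [Finset.mem_insert, Finset.mem_singleton]
      omega
  · intro τ h1 h2
    obtain ⟨v, hv, h3, h4⟩ := extend_face hc.valid hc.pos hc.le_one hx.1 hζ hcy h1 h2
    exact ⟨c v, hc.lt v hv, h3, h4⟩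

theorem cov6 (a : Fin 6 → ℕ) (h : ∀ j ∈ [4, 5, 6, 7, 8, 9], ∃ i, a i = j) :
    ∀ j, 4 ≤ j → j < 10 → ∃ i, a i = j := by
  intro j h1 h2
  apply h
  simp only [List.mem_cons, List.not_mem_nil, or_false]
  omega

theorem TV3 : TV T3 := by
  refine ⟨by decide, fun c δ hc => ?_⟩
  by_contra h
  simp only [T3, List.mem_cons, List.not_mem_nil, or_false, exists_eq_or_imp, exists_eq_left,
    Bool.false_eq_true, iff_false, iff_true, not_or, not_not] at h
  obtain ⟨N, hN, -, -⟩ := plane2 hc h.1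
  have h1 := hN ![4, 5, 6, 7, 8, 9] (by decide) (cov6 _ (by decide))
  have h2 := hN ![7, 8, 9, 4, 5, 6] (by decide) (cov6 _ (by decide))
  simp only [Matrix.cons_val] at h1 h2
  have e1 := (z2_cases _).resolve_right fun e => h.2.1 (h1.2.2 e)
  have e2 := (z2_cases _).resolve_right fun e => h.2.2 (h2.2.2 e)
  rw [e1, e2] at h1
  exact absurd h1.1 (by decide)

theorem plane3 {c : Eu 4 → ℕ} {δ : ℝ} (hc : Col c δ)
    (hS : Face c δ fun i => i = 0 ∨ i = 1 ∨ i = 2 ∨ i = 3) : ∃ n6 n7 n8 n9 : Z2,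
    n6 + n7 + n8 + n9 = 0 ∧ ((Face c δ fun i => i = 6 ∨ i = 4 ∨ i = 5) ↔ n6 = 1) ∧
    ((Face c δ fun i => i = 7 ∨ i = 4 ∨ i = 5) ↔ n7 = 1) ∧
    ((Face c δ fun i => i = 8 ∨ i = 4 ∨ i = 5) ↔ n8 = 1) ∧
    ((Face c δ fun i => i = 9 ∨ i = 4 ∨ i = 5) ↔ n9 = 1) := by
  obtain ⟨N, hN, h0, -⟩ := plane2 hc hS
  have h1 := hN ![6, 4, 5, 7, 8, 9] (by decide) (cov6 _ (by decide))
  have h2 := hN ![7, 4, 5, 6, 8, 9] (by decide) (cov6 _ (by decide))
  have h3 := hN ![8, 4, 5, 7, 6, 9] (by decide) (cov6 _ (by decide))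
  have h4 := hN ![9, 4, 5, 7, 8, 6] (by decide) (cov6 _ (by decide))
  simp only [Matrix.cons_val] at h1 h2 h3 h4
  exact ⟨_, _, _, _, h0, h1.2, h2.2, h3.2, h4.2⟩

theorem TV4 : TV T4 := by
  refine ⟨by decide, fun c δ hc => ?_⟩
  by_contra h
  simp only [T4, List.mem_cons, List.not_mem_nil, or_false, exists_eq_or_imp, exists_eq_left,
    Bool.false_eq_true, iff_false, iff_true, not_or, not_not] at h
  obtain ⟨n6, n7, n8, n9, h0, h6, h7, h8, h9⟩ := plane3 hc h.1
  rw [h6, h7, h8, h9] at h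
  have h' := h.2
  clear h h6 h7 h8 h9
  revert n6 n7 n8 n9
  decide

theorem TV5 : TV T5 := by
  refine ⟨by decide, fun c δ hc => ?_⟩
  by_contra h
  simp only [T5, List.mem_cons, List.not_mem_nil, or_false, exists_eq_or_imp, exists_eq_left,
    Bool.false_eq_true, iff_false, iff_true, not_or, not_not] at h
  obtain ⟨n6, n7, n8, n9, h0, h6, h7, h8, h9⟩ := plane3 hc h.1
  rw [h6, h7, h8, h9] at h
  have h' := h.2
  clear h h6 h7 h8 h9
  revert n6 n7 n8 n9
  decide

theorem TV6 : TV T6 := by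
  refine ⟨by decide, fun c δ hc => ?_⟩
  by_contra h
  simp only [T6, List.mem_cons, List.not_mem_nil, or_false, exists_eq_or_imp, exists_eq_left,
    Bool.false_eq_true, iff_false, iff_true, not_or, not_not] at h
  obtain ⟨N, hN, -, hD⟩ := plane2 hc h.1
  have h1 := hN ![4, 5, 6, 7, 8, 9] (by decide) (cov6 _ (by decide))
  simp only [Matrix.cons_val] at h1
  obtain ⟨i, hi, hi', hf⟩ := hD _ (h1.2.1 h.2.1) (h.2.1.mono (by simp))
  simp only [Finset.mem_insert, Finset.mem_singleton] at hi' hf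
  interval_cases i
  · exact h.2.2.1 hf
  · exact h.2.2.2.1 hf
  · exact h.2.2.2.2.1 hf
  · exact h.2.2.2.2.2 hf
  · omega
  · omega
  · omega
  · exact two_faces hc h.1 hf 8 9 (by intro i hi; omega)
  · exact two_faces hc h.1 hf 7 9 (by intro i hi; omega)
  · exact two_faces hc h.1 hf 7 8 (by intro i hi; omega)

def ts1 : List Tm := [T0, T1, T2, T3, T4, T5, T6]

theorem TV_ts1 : ∀ t ∈ ts1, TV t := by
  simp only [ts1, List.mem_cons, List.not_mem_nil, or_false, forall_eq_or_imp, forall_eq]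
  exact ⟨TV0, TV1, TV2, TV3, TV4, TV5, TV6⟩

end Vale.Agent.P052
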