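import Vale.Agent.P052.Chain

/-! Colour-set indicator cochains, join cochains, and the line pseudo-distance. -/

namespace Vale.Agent.P052

open scoped RealInnerProductSpace

section Chi

variable {α β : Type*} [DecidableEq α] [DecidableEq β]

def chi : Finset α → Co α
  | S, [] => if S = ∅ then 1 else 0
  | S, a :: m => if a ∈ S then chi (S.erase a) m else 0

theorem chi_cons (S : Finset α) (a : α) (m : List α) :
    chi S (a :: m) = if a ∈ S then chi (S.erase a) m else 0 := rfl

theorem chi_eq (S : Finset α) (m : List α) :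
    chi S m = if m.Nodup ∧ m.toFinset = S then 1 else 0 := by
  induction m generalizing S with
  | nil => simp [chi, eq_comm]
  | cons a m ih =>
    rw [chi_cons, ih]
    by_cases h : a ∈ S
    · simp only [h, if_true, List.nodup_cons, List.toFinset_cons]
      congr 1
      apply propext
      constructor
      · rintro ⟨h1, h2⟩
        refine ⟨⟨fun ha => ?_, h1⟩, ?_⟩
        · have : a ∈ S.erase a := by rw [← h2]; simpa using ha
          simp at this
        · rw [h2, Finset.insert_erase h]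
      · rintro ⟨⟨h0, h1⟩, h2⟩
        refine ⟨h1, ?_⟩
        rw [← h2, Finset.erase_insert (by simpa using h0)]
    · simp only [h, if_false]
      rw [if_neg]
      rintro ⟨-, h2⟩
      apply h
      rw [← h2]; simp

theorem chi_ne_zero {S : Finset α} {m : List α} (h : chi S m ≠ 0) :
    m.Nodup ∧ m.toFinset = S := by
  rw [chi_eq] at h
  by_contra hc
  exact h (if_neg hc)

theorem chi_mem {S : Finset α} {m : List α} (h : chi S m ≠ 0) (a : α) : a ∈ S ↔ a ∈ m := by
  rw [← (chi_ne_zero h).2]; simp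

theorem chi_length {S : Finset α} {m : List α} (h : chi S m ≠ 0) : m.length = S.card := by
  rw [← (chi_ne_zero h).2, List.toFinset_card_of_nodup (chi_ne_zero h).1]

theorem chi_map {f : α → β} (hf : Function.Injective f) (S : Finset α) (m : List α) :
    chi (S.image f) (m.map f) = chi S m := by
  have : (m.map f).toFinset = m.toFinset.image f := by ext; simp
  simp only [chi_eq, List.nodup_map_iff hf, this, (Finset.image_injective hf).eq_iff]

theorem cobd_chi (U S : Finset α) {m : List α} (h : ∀ x ∈ m, x ∈ U) :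
    cobd (chi S) m = ∑ i ∈ U \ S, chi (insert i S) m := by
  induction m generalizing S with
  | nil => simp [chi]
  | cons a m ih =>
    have ih' := fun S => ih S fun x hx => h x (by simp [hx])
    have haU : a ∈ U := h a (by simp)
    rw [cobd_cons]
    by_cases ha : a ∈ S
    · have e : (fun m => chi S (a :: m)) = chi (S.erase a) := by
        funext m; simp [chi_cons, ha]
      have e2 : U \ S.erase a = insert a (U \ S) := by
        ext x; simp only [Finset.mem_sdiff, Finset.mem_erase, Finset.mem_insert]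
        by_cases hx : x = a
        · subst hx; simp [haU]
        · simp [hx]
      rw [e, ih', e2, Finset.sum_insert (by simp [ha]), Finset.insert_erase ha, ← add_assoc,
        z2_add_self, zero_add]
      apply Finset.sum_congr rfl
      intro i hi
      have hia : i ≠ a := by rintro rfl; simp [ha] at hi
      rw [chi_cons, if_pos (by simp [ha]), Finset.erase_insert_of_ne hia]
    · have e : (fun m => chi S (a :: m)) = fun _ => 0 := by
        funext m; simp [chi_cons, ha]
      rw [e, cobd_zero, add_zero, Finset.sum_eq_single a]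
      · rw [chi_cons, if_pos (by simp), Finset.erase_insert ha]
      · intro i _ hia
        rw [chi_cons, if_neg]
        simp [ha, hia.symm]
      · intro hh
        simp [haU, ha] at hh

theorem cobd_chi_eq_zero (S : Finset α) {m : List α}
    (h : ∀ i, i ∉ S → chi (insert i S) m = 0) : cobd (chi S) m = 0 := by
  rw [cobd_chi m.toFinset S (by simp)]
  apply Finset.sum_eq_zero
  intro i hi
  exact h i (Finset.mem_sdiff.1 hi).2

end Chi

section Join

variable {X : Type*}

def pos : List (Bool × X) → List X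
  | [] => []
  | (true, v) :: l => v :: pos l
  | (false, _) :: l => pos l

def neg : List (Bool × X) → List X
  | [] => []
  | (true, _) :: l => neg l
  | (false, v) :: l => v :: neg l

theorem mem_pos {l : List (Bool × X)} {v : X} : v ∈ pos l ↔ (true, v) ∈ l := by
  induction l with
  | nil => simp [pos]
  | cons a l ih => rcases a with ⟨_ | _, w⟩ <;> simp [pos, ih]

theorem mem_neg {l : List (Bool × X)} {v : X} : v ∈ neg l ↔ (false, v) ∈ l := by
  induction l with
  | nil => simp [neg]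
  | cons a l ih => rcases a with ⟨_ | _, w⟩ <;> simp [neg, ih]

theorem length_pos_neg (l : List (Bool × X)) : (pos l).length + (neg l).length = l.length := by
  induction l with
  | nil => simp [pos, neg]
  | cons a l ih => rcases a with ⟨_ | _, w⟩ <;> simp [pos, neg, ← ih] <;> omega

def jn (F : List X → List X → Z2) : Co (Bool × X) := fun l => F (pos l) (neg l)

theorem cobd_jn (F : List X → List X → Z2) (l : List (Bool × X)) :
    cobd (jn F) l = cobd (fun p => F p (neg l)) (pos l) + cobd (fun n => F (pos l) n) (neg l) := by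
  induction l generalizing F with
  | nil => simp [pos, neg]
  | cons a l ih =>
    rcases a with ⟨_ | _, w⟩
    · have e : (fun m => jn F ((false, w) :: m)) = jn (fun p n => F p (w :: n)) := rfl
      rw [cobd_cons, e, ih]
      simp only [pos, neg, cobd_cons, jn]
      ring
    · have e : (fun m => jn F ((true, w) :: m)) = jn (fun p n => F (w :: p) n) := rfl
      rw [cobd_cons, e, ih]
      simp only [pos, neg, cobd_cons, jn]
      ring

end Join

section Lines

variable {E : Type*} [NormedAddCommGroup E] [InnerProductSpace ℝ E]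

/-- distance between the lines spanned by two unit vectors -/
noncomputable def ld (v w : E) : ℝ := min ‖v - w‖ ‖v + w‖

omit [InnerProductSpace ℝ E] in
theorem ld_le_iff {v w : E} {r : ℝ} : ld v w ≤ r ↔ ‖v - w‖ ≤ r ∨ ‖v + w‖ ≤ r := min_le_iff

omit [InnerProductSpace ℝ E] in
theorem ld_le_norm (v w : E) : ld v w ≤ ‖v - w‖ := min_le_left _ _

omit [InnerProductSpace ℝ E] in
theorem ld_nonneg (v w : E) : 0 ≤ ld v w := le_min (norm_nonneg _) (norm_nonneg _)

omit [InnerProductSpace ℝ E] in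
theorem ld_comm (v w : E) : ld v w = ld w v := by
  rw [ld, ld, norm_sub_rev, add_comm]

omit [InnerProductSpace ℝ E] in
theorem ld_self (v : E) : ld v v = 0 :=
  le_antisymm ((ld_le_norm v v).trans (by simp)) (ld_nonneg _ _)

omit [InnerProductSpace ℝ E] in
theorem ld_neg_right (v w : E) : ld v (-w) = ld v w := by
  rw [ld, ld, min_comm, sub_neg_eq_add, ← sub_eq_add_neg]

omit [InnerProductSpace ℝ E] in
theorem ld_tri (u v w : E) : ld u w ≤ ld u v + ld v w := by
  have h1 := norm_add_le (u - v) (v - w)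
  have h2 := norm_add_le (u - v) (v + w)
  have h3 := norm_sub_le (u + v) (v - w)
  have h4 := norm_sub_le (u + v) (v + w)
  rw [show u - v + (v - w) = u - w by abel] at h1
  rw [show u - v + (v + w) = u + w by abel] at h2
  rw [show u + v - (v - w) = u + w by abel] at h3
  rw [show u + v - (v + w) = u - w by abel] at h4
  have h5 : ld u w ≤ ‖u - w‖ := min_le_left _ _
  have h6 : ld u w ≤ ‖u + w‖ := min_le_right _ _
  simp only [ld] at *
  rcases min_cases ‖u - v‖ ‖u + v‖ with ⟨e1, -⟩ | ⟨e1, -⟩ <;>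
    rcases min_cases ‖v - w‖ ‖v + w‖ with ⟨e2, -⟩ | ⟨e2, -⟩ <;> rw [e1, e2] <;> linarith

theorem abs_inner_sub_le {y : E} (hy : ‖y‖ = 1) (v w : E) : |⟪v, y⟫ - ⟪w, y⟫| ≤ ‖v - w‖ := by
  rw [← inner_sub_left]
  simpa [hy] using abs_real_inner_le_norm (v - w) y

theorem abs_inner_le_ld {y : E} (hy : ‖y‖ = 1) (v w : E) : |⟪v, y⟫| ≤ |⟪w, y⟫| + ld v w := by
  have h1 := abs_inner_sub_le hy v w
  have h2 := abs_inner_sub_le hy v (-w)
  rw [inner_neg_left, sub_neg_eq_add, sub_neg_eq_add] at h2
  have h3 := abs_sub_abs_le_abs_sub ⟪v, y⟫ ⟪w, y⟫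
  have h4 := abs_sub_abs_le_abs_add ⟪v, y⟫ ⟪w, y⟫
  rcases min_cases ‖v - w‖ ‖v + w‖ with ⟨e1, -⟩ | ⟨e1, -⟩ <;> rw [ld, e1] <;> linarith

theorem inner_eq_of_unit {v w : E} (hv : ‖v‖ = 1) (hw : ‖w‖ = 1) :
    ⟪v, w⟫ = 1 - ‖v - w‖ ^ 2 / 2 := by
  rw [norm_sub_sq_real, hv, hw]; ring

theorem inner_pos_of_close {v w : E} (hv : ‖v‖ = 1) (hw : ‖w‖ = 1) (h : ‖v - w‖ ≤ 1) :
    0 < ⟪v, w⟫ := by
  rw [inner_eq_of_unit hv hw]
  nlinarith [norm_nonneg (v - w)]

theorem inner_neg_of_close {v w : E} (hv : ‖v‖ = 1) (hw : ‖w‖ = 1) (h : ‖v + w‖ ≤ 1) :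
    ⟪v, w⟫ < 0 := by
  have := inner_pos_of_close (w := -w) hv (by rw [norm_neg, hw]) (by rwa [sub_neg_eq_add])
  rw [inner_neg_right] at this
  linarith

theorem ld_sq_le {v w : E} (hv : ‖v‖ = 1) (hw : ‖w‖ = 1) :
    ld v w ^ 2 = 2 * (1 - |⟪v, w⟫|) := by
  have h1 := inner_eq_of_unit hv hw
  have h2 := inner_eq_of_unit (w := -w) hv (by rw [norm_neg, hw])
  rw [inner_neg_right, sub_neg_eq_add] at h2
  rcases min_cases ‖v - w‖ ‖v + w‖ with ⟨e1, e2⟩ | ⟨e1, e2⟩ <;> rw [ld, e1]
  · have : ‖v - w‖ ^ 2 ≤ ‖v + w‖ ^ 2 := by gcongr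
    rw [abs_of_nonneg (by linarith)]; linarith
  · have : ‖v + w‖ ^ 2 ≤ ‖v - w‖ ^ 2 := by gcongr
    rw [abs_of_nonpos (by linarith)]; linarith

open Classical in
/-- sign cochain -/
noncomputable def phi (v w : E) : Z2 := if ⟪v, w⟫ < 0 then 1 else 0

theorem phi_of_pos {v w : E} (h : 0 < ⟪v, w⟫) : phi v w = 0 := if_neg (by linarith)

theorem phi_of_neg {v w : E} (h : ⟪v, w⟫ < 0) : phi v w = 1 := if_pos h

theorem phi_neg_right {v w : E} (h : ⟪v, w⟫ ≠ 0) : phi v (-w) = phi v w + 1 := by
  rcases lt_or_gt_of_ne h with h | h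
  · rw [phi_of_neg h, phi_of_pos (by rw [inner_neg_right]; linarith)]; rfl
  · rw [phi_of_pos h, phi_of_neg (by rw [inner_neg_right]; linarith)]; rfl

theorem phi_cocycle {u v w : E} (hu : ‖u‖ = 1) (hv : ‖v‖ = 1) (hw : ‖w‖ = 1)
    (h1 : ld u v ≤ 1 / 2) (h2 : ld u w ≤ 1 / 2) : phi v w + phi u w + phi u v = 0 := by
  have a1 := norm_sub_le (u - w) (u - v)
  have a2 := norm_sub_le (u + w) (u - v)
  have a3 := norm_sub_le (u + v) (u - w)
  have a4 := norm_sub_le (u + v) (u + w)
  rw [show u - w - (u - v) = v - w by abel] at a1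
  rw [show u + w - (u - v) = v + w by abel] at a2
  rw [show u + v - (u - w) = v + w by abel] at a3
  rw [show u + v - (u + w) = v - w by abel] at a4
  rcases ld_le_iff.1 h1 with h1 | h1 <;> rcases ld_le_iff.1 h2 with h2 | h2
  · rw [phi_of_pos (inner_pos_of_close hu hv (by linarith)),
      phi_of_pos (inner_pos_of_close hu hw (by linarith)),
      phi_of_pos (inner_pos_of_close hv hw (by linarith))]; rfl
  · rw [phi_of_pos (inner_pos_of_close hu hv (by linarith)),
      phi_of_neg (inner_neg_of_close hu hw (by linarith)),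
      phi_of_neg (inner_neg_of_close hv hw (by linarith))]; rfl
  · rw [phi_of_neg (inner_neg_of_close hu hv (by linarith)),
      phi_of_pos (inner_pos_of_close hu hw (by linarith)),
      phi_of_neg (inner_neg_of_close hv hw (by linarith))]; rfl
  · rw [phi_of_neg (inner_neg_of_close hu hv (by linarith)),
      phi_of_neg (inner_neg_of_close hu hw (by linarith)),
      phi_of_pos (inner_pos_of_close hv hw (by linarith))]; rfl

/-- a valid colouring: even, and equal colours force a large inner product -/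
structure Valid {α : Type*} (c : E → α) (δ : ℝ) : Prop where
  even : ∀ v, c (-v) = c v
  sep : ∀ v w, ‖v‖ = 1 → ‖w‖ = 1 → c v = c w → δ ≤ |⟪v, w⟫|

/-- `x` witnesses that the colour set `A` is a face -/
def Wit {α : Type*} (c : E → α) (δ : ℝ) (A : α → Prop) (x : E) : Prop :=
  ‖x‖ = 1 ∧ ∀ y, ‖y‖ = 1 → A (c y) → δ / 2 ≤ |⟪x, y⟫|

def Face {α : Type*} (c : E → α) (δ : ℝ) (A : α → Prop) : Prop := ∃ x, Wit c δ A x

theorem wit_of_close {α : Type*} {c : E → α} {δ : ℝ} (hc : Valid c δ) {A : α → Prop} {x : E}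
    (hx : ‖x‖ = 1) (h : ∀ i, A i → ∃ v, ‖v‖ = 1 ∧ c v = i ∧ ld x v ≤ δ / 2) : Wit c δ A x := by
  refine ⟨hx, fun y hy hA => ?_⟩
  obtain ⟨v, hv, e, hd⟩ := h _ hA
  have h1 := hc.sep v y hv hy e
  have h2 := abs_inner_le_ld hy v x
  rw [ld_comm] at h2
  linarith

theorem wit_of_chi {α : Type*} [DecidableEq α] {c : E → α} {δ : ℝ} (hc : Valid c δ)
    {S : Finset α} {l : List E} (hl : ∀ v ∈ l, ‖v‖ = 1) (h : chi S (l.map c) ≠ 0) {x : E}
    (hx : ‖x‖ = 1) (hd : ∀ v ∈ l, ld x v ≤ δ / 2) : Wit c δ (· ∈ S) x := by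
  apply wit_of_close hc hx
  intro i hi
  obtain ⟨v, hv, e⟩ := List.mem_map.1 ((chi_mem h i).1 hi)
  exact ⟨v, hl v hv, e, hd v hv⟩

theorem Wit.mono {α : Type*} {c : E → α} {δ : ℝ} {A B : α → Prop} {x : E} (h : Wit c δ A x)
    (e : ∀ i, B i → A i) : Wit c δ B x := ⟨h.1, fun y hy hB => h.2 y hy (e _ hB)⟩

theorem Face.mono {α : Type*} {c : E → α} {δ : ℝ} {A B : α → Prop} (h : Face c δ A)
    (e : ∀ i, B i → A i) : Face c δ B := by
  obtain ⟨x, hx⟩ := h
  exact ⟨x, hx.mono e⟩

theorem exists_unit_orth [FiniteDimensional ℝ E] {k : ℕ} (hk : k < Module.finrank ℝ E)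
    (v : Fin k → E) : ∃ y : E, ‖y‖ = 1 ∧ ∀ i, ⟪v i, y⟫ = 0 := by
  let f : E →ₗ[ℝ] (Fin k → ℝ) := LinearMap.pi fun i => (innerSL ℝ (v i) : E →ₗ[ℝ] ℝ)
  have hker : LinearMap.ker f ≠ ⊥ := by
    apply LinearMap.ker_ne_bot_of_finrank_lt
    simpa using hk
  obtain ⟨y, hy, hy0⟩ := Submodule.exists_mem_ne_zero_of_ne_bot hker
  have hn : ‖y‖ ≠ 0 := norm_ne_zero_iff.2 hy0
  refine ⟨‖y‖⁻¹ • y, by rw [norm_smul, norm_inv, norm_norm, inv_mul_cancel₀ hn], fun i => ?_⟩
  have : f y i = 0 := by rw [LinearMap.mem_ker.1 hy]; rfl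
  rw [real_inner_smul_right]
  have e : f y i = ⟪v i, y⟫ := rfl
  rw [← e, this, mul_zero]

end Lines

end Vale.Agent.P052
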