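import Vale.Agent.P052.Chi

/-! One-dimensional lemmas: great circles and thin bands around them. -/

namespace Vale.Agent.P052

open scoped RealInnerProductSpace
open Real

theorem const_of_close {α : Type*} (u : ℝ → α) {r : ℝ} (hr : 0 < r)
    (h : ∀ a b, |a - b| ≤ r → u a = u b) (a b : ℝ) : u a = u b := by
  apply IsLocallyConstant.apply_eq_of_preconnectedSpace
  rw [IsLocallyConstant.iff_eventually_eq]
  intro x
  rw [Metric.eventually_nhds_iff]
  exact ⟨r, hr, fun y hy => h y x (by rw [← Real.dist_eq]; exact hy.le)⟩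

theorem exists_int_prim (a : ℤ → Z2) : ∃ A : ℤ → Z2, ∀ n, A (n + 1) = A n + a n := by
  refine ⟨fun n => match n with
    | Int.ofNat k => ∑ i ∈ Finset.range k, a i
    | Int.negSucc k => ∑ i ∈ Finset.range (k + 1), a (Int.negSucc i), fun n => ?_⟩
  rcases n with k | k
  · exact Finset.sum_range_succ (fun i : ℕ => a i) k
  · rcases k with _ | k
    · have : Int.negSucc 0 + 1 = Int.ofNat 0 := rfl
      rw [this]
      simp [z2_add_self]
    · have : Int.negSucc (k + 1) + 1 = Int.negSucc k := rfl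
      rw [this]
      simp only
      rw [Finset.sum_range_succ (fun i => a (Int.negSucc i)) (k + 1), add_assoc,
        z2_add_self, add_zero]

theorem exists_prim (ρ : ℝ → ℝ → Z2) {h : ℝ} (hh : 0 < h)
    (hρ : ∀ a b c, |a - b| ≤ 2 * h → |a - c| ≤ 2 * h → ρ b c + ρ a c + ρ a b = 0) :
    ∃ s : ℝ → Z2, ∀ a b, |a - b| ≤ h → s a + s b = ρ a b := by
  obtain ⟨A, hA⟩ := exists_int_prim fun n => ρ (h * n) (h * (n + 1 : ℤ))
  refine ⟨fun θ => A ⌊θ / h⌋ + ρ (h * ⌊θ / h⌋) θ, fun a b hab => ?_⟩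
  have fl : ∀ θ : ℝ, h * ⌊θ / h⌋ ≤ θ ∧ θ < h * ⌊θ / h⌋ + h := by
    intro θ
    have h1 := Int.floor_le (θ / h)
    have h2 := Int.lt_floor_add_one (θ / h)
    rw [le_div_iff₀ hh] at h1
    rw [div_lt_iff₀ hh] at h2
    constructor <;> linarith
  obtain ⟨a1, a2⟩ := fl a
  obtain ⟨b1, b2⟩ := fl b
  simp only
  generalize ⌊a / h⌋ = n at *
  generalize ⌊b / h⌋ = m at *
  rw [abs_le] at hab
  have h1 : m < n + 2 := by
    have : h * m < h * (n + 2) := by linarith
    have := lt_of_mul_lt_mul_left this hh.le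
    exact_mod_cast this
  have h2 : n < m + 2 := by
    have : h * n < h * (m + 2) := by linarith
    have := lt_of_mul_lt_mul_left this hh.le
    exact_mod_cast this
  have h2' : (2 : Z2) = 0 := rfl
  have hc : m = n ∨ m = n + 1 ∨ n = m + 1 := by omega
  rcases hc with rfl | rfl | rfl
  · have := hρ (h * m) a b (by rw [abs_le]; constructor <;> linarith)
      (by rw [abs_le]; constructor <;> linarith)
    linear_combination this + (A m - ρ a b) * h2'
  · push_cast at b1 b2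
    have e1 := hρ (h * n) a b (by rw [abs_le]; constructor <;> linarith)
      (by rw [abs_le]; constructor <;> linarith)
    have e2 := hρ (h * n) (h * (n + 1 : ℤ)) b (by push_cast; rw [abs_le]; constructor <;> linarith)
      (by rw [abs_le]; constructor <;> linarith)
    rw [hA]
    linear_combination e1 + e2 + (A n - ρ a b - ρ (h * n) b) * h2'
  · push_cast at a1 a2
    have e1 := hρ (h * m) a b (by rw [abs_le]; constructor <;> linarith)
      (by rw [abs_le]; constructor <;> linarith)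
    have e2 := hρ (h * m) (h * (m + 1 : ℤ)) a (by push_cast; rw [abs_le]; constructor <;> linarith)
      (by rw [abs_le]; constructor <;> linarith)
    rw [hA]
    linear_combination e1 + e2 + (A m - ρ a b - ρ (h * m) a) * h2'

variable {E : Type*} [NormedAddCommGroup E] [InnerProductSpace ℝ E]

/-- great circle -/
noncomputable def gc (e f : E) (θ : ℝ) : E := cos θ • e + sin θ • f

theorem gc_inner {e f : E} (he : ‖e‖ = 1) (hf : ‖f‖ = 1) (hef : ⟪e, f⟫ = 0) (a b : ℝ) :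
    ⟪gc e f a, gc e f b⟫ = cos (a - b) := by
  have hfe : ⟪f, e⟫ = 0 := by rw [real_inner_comm, hef]
  simp only [gc, inner_add_left, inner_add_right, real_inner_smul_left, real_inner_smul_right,
    real_inner_self_eq_norm_sq, he, hf, hef, hfe, cos_sub]
  ring

theorem gc_norm {e f : E} (he : ‖e‖ = 1) (hf : ‖f‖ = 1) (hef : ⟪e, f⟫ = 0) (a : ℝ) :
    ‖gc e f a‖ = 1 := by
  have := gc_inner he hf hef a a
  rw [real_inner_self_eq_norm_sq, sub_self, cos_zero] at this
  nlinarith [norm_nonneg (gc e f a)]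

theorem gc_dist {e f : E} (he : ‖e‖ = 1) (hf : ‖f‖ = 1) (hef : ⟪e, f⟫ = 0) (a b : ℝ) :
    ‖gc e f a - gc e f b‖ ≤ |a - b| := by
  have h1 := inner_eq_of_unit (gc_norm he hf hef a) (gc_norm he hf hef b)
  rw [gc_inner he hf hef] at h1
  have h2 := Real.one_sub_sq_div_two_le_cos (x := a - b)
  apply le_of_sq_le_sq _ (abs_nonneg _)
  rw [sq_abs]
  linarith

theorem gc_add_pi (e f : E) (a : ℝ) : gc e f (a + π) = -gc e f a := by
  simp only [gc, cos_add_pi, sin_add_pi]; module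

theorem gc_orth {x e f : E} (h1 : ⟪x, e⟫ = 0) (h2 : ⟪x, f⟫ = 0) (a : ℝ) : ⟪x, gc e f a⟫ = 0 := by
  simp [gc, inner_add_right, real_inner_smul_right, h1, h2]

theorem gc_ne {α : Type*} {c : E → α} {δ : ℝ} (hc : Valid c δ) {e f : E} (he : ‖e‖ = 1)
    (hf : ‖f‖ = 1) (hef : ⟪e, f⟫ = 0) {a b : ℝ} (h : |a - b| < δ) :
    c (gc e f a) ≠ c (gc e f (b + π / 2)) := by
  intro hh
  have := hc.sep _ _ (gc_norm he hf hef _) (gc_norm he hf hef _) hh
  rw [gc_inner he hf hef, show a - (b + π / 2) = (a - b) - π / 2 by ring, cos_sub_pi_div_two]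
    at this
  linarith [Real.abs_sin_le_abs (x := a - b)]

theorem two_colors {α : Type*} {c : E → α} {δ : ℝ} (hc : Valid c δ) (hδ : 0 < δ) {e f : E}
    (he : ‖e‖ = 1) (hf : ‖f‖ = 1) (hef : ⟪e, f⟫ = 0) (p q : α)
    (h : ∀ θ, c (gc e f θ) = p ∨ c (gc e f θ) = q) : False := by
  have key := const_of_close (fun θ => c (gc e f θ)) (half_pos hδ) (fun a b hab => by
    have h1 := gc_ne hc he hf hef (a := a) (b := b) (by linarith)
    have h2 := gc_ne hc he hf hef (a := b) (b := b) (by simpa using hδ)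
    rcases h a with e1 | e1 <;> rcases h b with e2 | e2 <;> rcases h (b + π / 2) with e3 | e3 <;>
      simp_all) 0 (0 + π / 2)
  exact gc_ne hc he hf hef (a := 0) (b := 0) (by simpa using hδ) key

theorem gc_close {e f : E} (he : ‖e‖ = 1) (hf : ‖f‖ = 1) (hef : ⟪e, f⟫ = 0) {a b r : ℝ}
    (h : ld (gc e f a) (gc e f b) ≤ r) : ∃ n : ℤ, |a - (b + n * π)| ≤ 2 * r := by
  have hr : 0 ≤ r := (ld_nonneg _ _).trans h
  have h1 := ld_sq_le (gc_norm he hf hef a) (gc_norm he hf hef b)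
  rw [gc_inner he hf hef] at h1
  have h2 : ld (gc e f a) (gc e f b) ^ 2 ≤ r ^ 2 := by gcongr; exact ld_nonneg _ _
  refine ⟨round ((a - b) / π), ?_⟩
  have h3 := abs_sub_round ((a - b) / π)
  generalize round ((a - b) / π) = n at *
  have hpi := pi_pos
  have h4 : |a - (b + n * π)| ≤ π / 2 := by
    have : a - (b + n * π) = ((a - b) / π - n) * π := by field_simp; ring
    rw [this, abs_mul, abs_of_pos hpi]
    nlinarith
  have h5 : |cos (a - (b + n * π))| = |cos (a - b)| := by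
    rw [show a - (b + n * π) = (a - b) - n * π by ring, cos_sub_int_mul_pi, abs_mul]
    simp
  have h6 : 0 ≤ cos (a - (b + n * π)) := by
    rw [abs_le] at h4
    exact cos_nonneg_of_neg_pi_div_two_le_of_le h4.1 h4.2
  have h7 := cos_le_one_sub_mul_cos_sq (x := a - (b + n * π)) (by linarith)
  rw [abs_of_nonneg h6] at h5
  generalize a - (b + n * π) = t at *
  have h8 : 2 / π ^ 2 * t ^ 2 ≤ r ^ 2 / 2 := by linarith
  have h9 : π ^ 2 ≤ 16 := by nlinarith [pi_le_four]
  rw [div_mul_eq_mul_div, div_le_iff₀ (by positivity)] at h8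
  apply le_of_sq_le_sq _ (by positivity)
  rw [sq_abs]
  nlinarith [sq_nonneg r]

theorem near_circle (b : OrthonormalBasis (Fin 3) ℝ E) {y : E} (hy : ‖y‖ = 1) :
    ∃ θ, ‖y - gc (b 1) (b 2) θ‖ ≤ 2 * |⟪b 0, y⟫| := by
  have hs := b.sum_sq_inner_right y
  rw [Fin.sum_univ_three, hy] at hs
  set z : ℂ := ⟨⟪b 1, y⟫, ⟪b 2, y⟫⟩ with hz
  refine ⟨Complex.arg z, ?_⟩
  have h1 := Complex.norm_mul_cos_arg z
  have h2 := Complex.norm_mul_sin_arg z
  have h3 : ‖z‖ ^ 2 = ⟪b 1, y⟫ ^ 2 + ⟪b 2, y⟫ ^ 2 := by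
    rw [Complex.sq_norm, Complex.normSq_apply]; simp [hz]; ring
  have hn := gc_norm (b.orthonormal.1 1) (b.orthonormal.1 2) (b.orthonormal.2 (by decide)) z.arg
  have h4 := inner_eq_of_unit hy hn
  have h5 : ⟪y, gc (b 1) (b 2) z.arg⟫ = ‖z‖ := by
    simp only [gc, inner_add_right, real_inner_smul_right]
    rw [real_inner_comm, real_inner_comm (b 2)]
    have e1 : ⟪b 1, y⟫ = ‖z‖ * cos z.arg := h1.symm
    have e2 : ⟪b 2, y⟫ = ‖z‖ * sin z.arg := h2.symm
    rw [e1, e2]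
    linear_combination ‖z‖ * cos_sq_add_sin_sq z.arg
  apply le_of_sq_le_sq _ (by positivity)
  rw [mul_pow, sq_abs]
  have h6 : ‖z‖ ≤ 1 := by nlinarith [norm_nonneg z, sq_nonneg ⟪b 0, y⟫]
  nlinarith [norm_nonneg z, sq_nonneg ⟪b 0, y⟫]

theorem exists_onb {n : ℕ} [FiniteDimensional ℝ E] (hE : Module.finrank ℝ E = n + 1) {x : E}
    (hx : ‖x‖ = 1) : ∃ b : OrthonormalBasis (Fin (n + 1)) ℝ E, b 0 = x := by
  have : Orthonormal ℝ (({0} : Set (Fin (n + 1))).domRestrict fun _ => x) := by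
    constructor
    · intro i; exact hx
    · intro i j hij
      exact absurd (Subsingleton.elim i j) hij
  obtain ⟨b, hb⟩ := this.exists_orthonormalBasis_extension_of_card_eq (by simpa using hE)
  exact ⟨b, hb 0 rfl⟩

theorem band_const [FiniteDimensional ℝ E] (hE : Module.finrank ℝ E = 3) (u : E → Z2) {x : E}
    (hx : ‖x‖ = 1) {w : ℝ} (hw : 0 < w)
    (h : ∀ y y', ‖y‖ = 1 → ‖y'‖ = 1 → |⟪x, y⟫| ≤ w → |⟪x, y'⟫| ≤ w → ld y y' ≤ 2 * w →
      u y = u y') {y y' : E} (hy : ‖y‖ = 1) (hy' : ‖y'‖ = 1) (h1 : |⟪x, y⟫| ≤ w)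
    (h2 : |⟪x, y'⟫| ≤ w) : u y = u y' := by
  obtain ⟨b, rfl⟩ := exists_onb hE hx
  have he := b.orthonormal.1 1
  have hf := b.orthonormal.1 2
  have hef : ⟪b 1, b 2⟫ = 0 := b.orthonormal.2 (by decide)
  have ho : ∀ θ, |⟪b 0, gc (b 1) (b 2) θ⟫| ≤ w := fun θ => by
    rw [gc_orth (b.orthonormal.2 (by decide)) (b.orthonormal.2 (by decide))]; simpa using hw.le
  obtain ⟨θ, hθ⟩ := near_circle b hy
  obtain ⟨θ', hθ'⟩ := near_circle b hy'
  rw [h y _ hy (gc_norm he hf hef θ) h1 (ho θ) ((ld_le_norm _ _).trans (by linarith)),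
    h y' _ hy' (gc_norm he hf hef θ') h2 (ho θ') ((ld_le_norm _ _).trans (by linarith))]
  exact const_of_close (fun θ => u (gc (b 1) (b 2) θ)) (r := 2 * w) (by linarith)
    (fun a a' haa => h _ _ (gc_norm he hf hef a) (gc_norm he hf hef a') (ho a) (ho a')
      ((ld_le_norm _ _).trans ((gc_dist he hf hef a a').trans haa))) θ θ'

/-- the cochain that has to become a coboundary on bands -/
noncomputable def rho (c : E → Fin 6) (y y' : E) : Z2 := chi {3, 4} [c y, c y'] + phi y y'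

theorem rho_cocycle {c : E → Fin 6} {δ : ℝ} (hc : Valid c δ) (hδ : 0 < δ) (hδ1 : δ ≤ 1)
    (hno : ¬ Face c δ (· ∈ ({3, 4, 5} : Finset (Fin 6)))) {x : E}
    (hx : Wit c δ (· ∈ ({0, 1, 2} : Finset (Fin 6))) x) {u v w : E}
    (hu : ‖u‖ = 1) (hv : ‖v‖ = 1) (hw : ‖w‖ = 1) (bu : |⟪x, u⟫| < δ / 2) (bv : |⟪x, v⟫| < δ / 2)
    (bw : |⟪x, w⟫| < δ / 2) (h1 : ld u v ≤ δ / 2) (h2 : ld u w ≤ δ / 2) :
    rho c v w + rho c u w + rho c u v = 0 := by
  have e1 := phi_cocycle hu hv hw (by linarith) (by linarith)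
  have e2 : cobd (chi ({3, 4} : Finset (Fin 6))) ([u, v, w].map c) = 0 := by
    apply cobd_chi_eq_zero
    intro i hi
    by_contra hne
    have hall : ∀ y ∈ [u, v, w], ‖y‖ = 1 := by simp [hu, hv, hw]
    have hwit := wit_of_chi hc hall hne hu (by
      simp only [List.mem_cons, List.not_mem_nil, or_false, forall_eq_or_imp, forall_eq, ld_self]
      exact ⟨by linarith, h1, h2⟩)
    obtain ⟨y, hy, e⟩ := List.mem_map.1 ((chi_mem hne i).1 (by simp))
    have hy2 : |⟪x, y⟫| < δ / 2 := by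
      simp only [List.mem_cons, List.not_mem_nil, or_false] at hy
      rcases hy with rfl | rfl | rfl <;> assumption
    have hi2 : i ∉ ({0, 1, 2} : Finset (Fin 6)) := fun hh => by
      have := hx.2 y (hall y hy) (by rw [e]; exact hh)
      linarith
    have : i = 5 := by
      have : ∀ i : Fin 6, i ∉ ({3, 4} : Finset (Fin 6)) → i ∉ ({0, 1, 2} : Finset (Fin 6)) →
        i = 5 := by decide
      exact this i hi hi2
    subst this
    exact hno ⟨u, hwit.mono (by decide)⟩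
  simp only [List.map_cons, List.map_nil, cobd_cons, cobd_nil, add_zero] at e2
  simp only [rho]
  linear_combination e1 + e2

def hexV (a b : Fin 6) : Z2 := if (a = 4 ∧ b = 5) ∨ (a = 4 ∧ b = 3) ∨ (a = 5 ∧ b = 3) then 1 else 0

theorem hexV_step : ∀ a ∈ ({3, 4, 5} : Finset (Fin 6)), ∀ a' ∈ ({3, 4, 5} : Finset (Fin 6)),
    ∀ b ∈ ({3, 4, 5} : Finset (Fin 6)), ∀ b' ∈ ({3, 4, 5} : Finset (Fin 6)),
    a ≠ b → a ≠ b' → a' ≠ b → a' ≠ b' →
    hexV a b + hexV a' b' = chi {3, 4} [a, a'] + chi {3, 4} [b, b'] := by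
  simp only [Finset.mem_insert, Finset.mem_singleton]
  rintro a (rfl | rfl | rfl) a' (rfl | rfl | rfl) b (rfl | rfl | rfl) b' (rfl | rfl | rfl) <;>
    decide

theorem hexV_swap : ∀ a ∈ ({3, 4, 5} : Finset (Fin 6)), ∀ b ∈ ({3, 4, 5} : Finset (Fin 6)),
    a ≠ b → hexV a b + hexV b a = 1 := by decide

theorem band [FiniteDimensional ℝ E] (hE : Module.finrank ℝ E = 3) {c : E → Fin 6} {δ : ℝ}
    (hc : Valid c δ) (hδ : 0 < δ) (hδ1 : δ ≤ 1)
    (hno : ¬ Face c δ (· ∈ ({3, 4, 5} : Finset (Fin 6)))) {x : E}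
    (hx : Wit c δ (· ∈ ({0, 1, 2} : Finset (Fin 6))) x) :
    ∃ s : E → Z2, ∀ y y', ‖y‖ = 1 → ‖y'‖ = 1 → |⟪x, y⟫| ≤ δ / 100 → |⟪x, y'⟫| ≤ δ / 100 →
      ld y y' ≤ 4 * (δ / 100) → s y + s y' = rho c y y' := by
  obtain ⟨b, hb⟩ := exists_onb hE hx.1
  have he := b.orthonormal.1 1
  have hf := b.orthonormal.1 2
  have hef : ⟪b 1, b 2⟫ = 0 := b.orthonormal.2 (by decide)
  have ho0 : ∀ θ, ⟪x, gc (b 1) (b 2) θ⟫ = 0 := fun θ => by
    rw [← hb, gc_orth (b.orthonormal.2 (by decide)) (b.orthonormal.2 (by decide))]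
  have ho : ∀ θ, |⟪x, gc (b 1) (b 2) θ⟫| < δ / 2 := fun θ => by
    rw [ho0]; simpa using hδ
  have hn := gc_norm he hf hef
  have hcol : ∀ θ, c (gc (b 1) (b 2) θ) ∈ ({3, 4, 5} : Finset (Fin 6)) := fun θ => by
    have : c (gc (b 1) (b 2) θ) ∉ ({0, 1, 2} : Finset (Fin 6)) := fun hh => by
      linarith [hx.2 _ (hn θ) hh, ho θ]
    revert this
    generalize c (gc (b 1) (b 2) θ) = i
    revert i; decide
  have h2' : (2 : Z2) = 0 := rfl
  obtain ⟨s, hs⟩ := exists_prim (fun a a' => rho c (gc (b 1) (b 2) a) (gc (b 1) (b 2) a'))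
    (h := 16 * (δ / 100)) (by positivity) (fun a a' a'' h1 h2 =>
      rho_cocycle hc hδ hδ1 hno hx (hn _) (hn _) (hn _) (ho _) (ho _) (ho _)
        ((ld_le_norm _ _).trans ((gc_dist he hf hef _ _).trans (by linarith)))
        ((ld_le_norm _ _).trans ((gc_dist he hf hef _ _).trans (by linarith))))
  have hs' : ∀ a a', |a - a'| ≤ 16 * (δ / 100) →
      s a + s a' = chi {3, 4} [c (gc (b 1) (b 2) a), c (gc (b 1) (b 2) a')] := by
    intro a a' h
    rw [hs a a' h, rho, phi_of_pos, add_zero]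
    exact inner_pos_of_close (hn _) (hn _) ((gc_dist he hf hef _ _).trans (by linarith))
  have hpi : ∀ a, s (a + π) = s a + 1 := by
    intro a
    have key := const_of_close (fun θ => s θ + s (θ + π / 2) +
      hexV (c (gc (b 1) (b 2) θ)) (c (gc (b 1) (b 2) (θ + π / 2)))) (r := 16 * (δ / 100))
      (by positivity) (fun a a' haa => by
        have e1 := hs' a a' haa
        have e2 := hs' (a + π / 2) (a' + π / 2) (by rwa [add_sub_add_right_eq_sub])
        have e3 := hexV_step _ (hcol a) _ (hcol a') _ (hcol (a + π / 2)) _ (hcol (a' + π / 2))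
          (gc_ne hc he hf hef (by simpa using hδ)) (gc_ne hc he hf hef (by linarith))
          (gc_ne hc he hf hef (by rw [abs_sub_comm]; linarith))
          (gc_ne hc he hf hef (by simpa using hδ))
        linear_combination e1 + e2 + e3 + (chi {3, 4} [c (gc (b 1) (b 2) a), c (gc (b 1) (b 2) a')]
          + chi {3, 4} [c (gc (b 1) (b 2) (a + π / 2)), c (gc (b 1) (b 2) (a' + π / 2))]
          - s a' - s (a' + π / 2) - hexV (c (gc (b 1) (b 2) a'))
            (c (gc (b 1) (b 2) (a' + π / 2)))) * h2') a (a + π / 2)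
    have e4 := hexV_swap _ (hcol a) _ (hcol (a + π / 2)) (gc_ne hc he hf hef (by simpa using hδ))
    rw [show a + π / 2 + π / 2 = a + π by ring, gc_add_pi, hc.even] at key
    linear_combination -key + e4 - (hexV (c (gc (b 1) (b 2) (a + π / 2))) (c (gc (b 1) (b 2) a)))
      * h2'
  have hC : ∀ a a', ld (gc (b 1) (b 2) a) (gc (b 1) (b 2) a') ≤ 8 * (δ / 100) →
      s a + s a' = rho c (gc (b 1) (b 2) a) (gc (b 1) (b 2) a') := by
    intro a a' h
    obtain ⟨n, hn'⟩ := gc_close he hf hef h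
    have step : ∀ t, ld (gc (b 1) (b 2) a) (gc (b 1) (b 2) t) ≤ 8 * (δ / 100) →
        ((s a + s (t + π) = rho c (gc (b 1) (b 2) a) (gc (b 1) (b 2) (t + π))) ↔
        (s a + s t = rho c (gc (b 1) (b 2) a) (gc (b 1) (b 2) t))) := by
      intro t ht
      have hne : ⟪gc (b 1) (b 2) a, gc (b 1) (b 2) t⟫ ≠ 0 := by
        rcases ld_le_iff.1 ht with h' | h'
        · exact (inner_pos_of_close (hn _) (hn _) (by linarith)).ne'
        · exact (inner_neg_of_close (hn _) (hn _) (by linarith)).ne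
      rw [hpi, gc_add_pi, rho, rho, hc.even, phi_neg_right hne, ← add_assoc, ← add_assoc,
        add_left_inj]
    have all : ∀ n : ℤ, ld (gc (b 1) (b 2) a) (gc (b 1) (b 2) (a' + n * π)) ≤ 8 * (δ / 100) ∧
        ((s a + s (a' + n * π) = rho c (gc (b 1) (b 2) a) (gc (b 1) (b 2) (a' + n * π))) ↔
        (s a + s a' = rho c (gc (b 1) (b 2) a) (gc (b 1) (b 2) a'))) := by
      intro n
      induction n using Int.induction_on with
      | zero => simpa using h
      | succ k ih =>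
        have e : a' + ((k : ℤ) + 1 : ℤ) * π = (a' + (k : ℤ) * π) + π := by push_cast; ring
        rw [e, step _ ih.1]
        exact ⟨by rw [gc_add_pi, ld_neg_right]; exact ih.1, ih.2⟩
      | pred k ih =>
        have e : a' + (-(k : ℤ) : ℤ) * π = (a' + (-(k : ℤ) - 1 : ℤ) * π) + π := by push_cast; ring
        rw [e] at ih
        have h1 := ih.1
        rw [gc_add_pi, ld_neg_right] at h1
        rw [step _ h1] at ih
        exact ⟨h1, ih.2⟩
    exact (all n).2.1 (hs _ _ (by linarith))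
  have hnear : ∀ y : E, ∃ θ, ‖y‖ = 1 → ‖y - gc (b 1) (b 2) θ‖ ≤ 2 * |⟪x, y⟫| := by
    intro y
    by_cases hy : ‖y‖ = 1
    · obtain ⟨θ, hθ⟩ := near_circle b hy
      exact ⟨θ, fun _ => by rwa [hb] at hθ⟩
    · exact ⟨0, fun h => absurd h hy⟩
  choose θ hθ using hnear
  refine ⟨fun y => s (θ y) + rho c (gc (b 1) (b 2) (θ y)) y, fun y y' hy hy' b1 b2 hd => ?_⟩
  have d1 : ld (gc (b 1) (b 2) (θ y)) y ≤ 2 * (δ / 100) := by
    rw [ld_comm]; exact (ld_le_norm _ _).trans ((hθ y hy).trans (by linarith))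
  have d2 : ld (gc (b 1) (b 2) (θ y')) y' ≤ 2 * (δ / 100) := by
    rw [ld_comm]; exact (ld_le_norm _ _).trans ((hθ y' hy').trans (by linarith))
  have d3 : ld (gc (b 1) (b 2) (θ y)) y' ≤ 6 * (δ / 100) :=
    (ld_tri _ y _).trans (by linarith)
  have d4 : ld (gc (b 1) (b 2) (θ y)) (gc (b 1) (b 2) (θ y')) ≤ 8 * (δ / 100) :=
    (ld_tri _ y' _).trans (by rw [ld_comm y']; linarith)
  have e1 := hC _ _ d4
  have e2 := rho_cocycle hc hδ hδ1 hno hx (hn (θ y)) hy hy' (ho _) (by linarith) (by linarith)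
    (by linarith) (by linarith)
  have e3 := rho_cocycle hc hδ hδ1 hno hx (hn (θ y)) (hn (θ y')) hy' (ho _) (ho _) (by linarith)
    (by linarith) (by linarith)
  simp only
  linear_combination e1 + e2 + e3 - (rho c y y' + rho c (gc (b 1) (b 2) (θ y)) y') * h2'

end Vale.Agent.P052
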