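import Vale.Agent.P052.RP2

/-! Ten-colourings of the projective three-space: the geometric facts. -/

namespace Vale.Agent.P052

open scoped RealInnerProductSpace

section

variable {E : Type*} [NormedAddCommGroup E] [InnerProductSpace ℝ E]

noncomputable def nrm (v : E) : E := ‖v‖⁻¹ • v

theorem nrm_norm {v : E} (h : 0 < ‖v‖) : ‖nrm v‖ = 1 := by
  rw [nrm, norm_smul, norm_inv, norm_norm, inv_mul_cancel₀ h.ne']

theorem nrm_unit {v : E} (h : ‖v‖ = 1) : nrm v = v := by rw [nrm, h, inv_one, one_smul]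

theorem nrm_neg (v : E) : nrm (-v) = -nrm v := by rw [nrm, nrm, norm_neg, smul_neg]

theorem nrm_dist {v w : E} {k : ℝ} (hk : 0 < k) (hv : k ≤ ‖v‖) (hw : k ≤ ‖w‖) :
    ‖nrm v - nrm w‖ ≤ 2 * ‖v - w‖ / k := by
  have hv0 : 0 < ‖v‖ := hk.trans_le hv
  have hw0 : 0 < ‖w‖ := hk.trans_le hw
  have e : nrm v - nrm w = ‖v‖⁻¹ • ((v - w) + (‖w‖ - ‖v‖) • nrm w) := by
    have : ‖v‖⁻¹ * ((‖w‖ - ‖v‖) * ‖w‖⁻¹) = ‖v‖⁻¹ - ‖w‖⁻¹ := by field_simp
    simp only [nrm, smul_add, smul_sub, smul_smul, this]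
    module
  have h1 : ‖(v - w) + (‖w‖ - ‖v‖) • nrm w‖ ≤ 2 * ‖v - w‖ := by
    have := norm_add_le (v - w) ((‖w‖ - ‖v‖) • nrm w)
    rw [norm_smul, nrm_norm hw0, mul_one, Real.norm_eq_abs] at this
    have h2 := abs_norm_sub_norm_le w v
    rw [norm_sub_rev w v] at h2
    linarith
  rw [e, norm_smul, norm_inv, norm_norm, inv_mul_eq_div]
  gcongr

open Classical in
noncomputable def al (a v : E) : E := if ⟪a, v⟫ < 0 then -v else v

theorem al_cases (a v : E) : al a v = v ∨ al a v = -v := by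
  simp only [al]; split_ifs <;> simp

theorem al_close {a v : E} (ha : ‖a‖ = 1) (hv : ‖v‖ = 1) {η : ℝ} (hη : η ≤ 1) (h : ld a v ≤ η) :
    ‖a - al a v‖ ≤ η := by
  rcases ld_le_iff.1 h with h | h
  · rw [al, if_neg (by linarith [inner_pos_of_close ha hv (by linarith)])]; exact h
  · rw [al, if_pos (inner_neg_of_close ha hv (by linarith)), sub_neg_eq_add]; exact h

noncomputable def trC (Θ : Co E) : Co E
  | [] => 0
  | a :: m => Θ (a :: m.map (al a)) + Θ (-a :: m.map fun v => -al a v)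

theorem trC_cobd (Θ : Co E) {a b d : E} (ha : ‖a‖ = 1) (hb : ‖b‖ = 1) (hd : ‖d‖ = 1)
    (h1 : ld a b ≤ 1 / 2) (h2 : ld a d ≤ 1 / 2) :
    trC (cobd Θ) [a, b, d] = cobd (trC Θ) [a, b, d] := by
  have := phi_cocycle ha hb hd h1 h2
  simp only [trC, cobd_cons, cobd_nil, List.map_cons, List.map_nil, add_zero, al, phi] at this ⊢
  split_ifs at this ⊢ <;> first | exact absurd this (by decide) | (simp only [neg_neg]; ring) | ring

theorem extend_face {c : E → ℕ} {δ : ℝ} (hc : Valid c δ) (hδ : 0 < δ) (hδ1 : δ ≤ 1) {x : E}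
    (hx : ‖x‖ = 1) {ζ : Ch E}
    (hζ : Supp (fun p => p.length = 3 ∧ (∀ v ∈ p, ‖v‖ = 1 ∧ ⟪v, x⟫ = 0) ∧ PC (δ / 200) p) ζ)
    (hcy : IsCyc ζ) {τ : Finset ℕ} (h1 : ζ (fun p => chi τ (p.map c)) = 1)
    (hf : Face c δ (· ∈ τ)) : ∃ v : E, ‖v‖ = 1 ∧ c v ∉ τ ∧ Face c δ (· ∈ insert (c v) τ) := by
  classical
  obtain ⟨y, hy1, hy⟩ := hf
  let ζ' : Ch E := ζ.comp trC (by
    intro Θ Φ l
    cases l with
    | nil => rfl
    | cons a m => simp only [trC]; ring)
  have hs : Supp (Sm {v : E | ‖v‖ = 1 ∧ ⟪v, x⟫ = 0} (2 * (δ / 200)) 3) ζ' := by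
    intro Θ h
    apply hζ
    rintro p ⟨hl, hu, hp⟩
    match p, hl with
    | [a, b, d], _ =>
      have ua := hu a (by simp)
      have ub := hu b (by simp)
      have ud := hu d (by simp)
      have k1 := al_close ua.1 ub.1 (by linarith) (hp a (by simp) b (by simp))
      have k2 := al_close ua.1 ud.1 (by linarith) (hp a (by simp) d (by simp))
      have k3 : ‖al a b - al a d‖ ≤ 2 * (δ / 200) := by
        have := norm_sub_le_norm_sub_add_norm_sub (al a b) a (al a d)
        rw [norm_sub_rev (al a b) a] at this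
        linarith
      have m1 : ‖al a b‖ = 1 ∧ ⟪al a b, x⟫ = 0 := by
        rcases al_cases a b with e | e <;> simp [e, ub]
      have m2 : ‖al a d‖ = 1 ∧ ⟪al a d, x⟫ = 0 := by
        rcases al_cases a d with e | e <;> simp [e, ud]
      have k1' := norm_sub_rev a (al a b)
      have k2' := norm_sub_rev a (al a d)
      have k3' := norm_sub_rev (al a b) (al a d)
      simp only [trC, List.map_cons, List.map_nil]
      rw [h, h, add_zero]
      · refine ⟨rfl, by simp [ua, m1, m2], ?_⟩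
        simp only [List.mem_cons, List.not_mem_nil, or_false, forall_eq_or_imp, forall_eq,
          sub_self, norm_zero, neg_sub_neg]
        refine ⟨⟨?_, ?_, ?_⟩, ⟨?_, ?_, ?_⟩, ⟨?_, ?_, ?_⟩⟩ <;> linarith
      · refine ⟨rfl, by simp [ua, m1, m2], ?_⟩
        simp only [List.mem_cons, List.not_mem_nil, or_false, forall_eq_or_imp, forall_eq,
          sub_self, norm_zero]
        refine ⟨⟨?_, ?_, ?_⟩, ⟨?_, ?_, ?_⟩, ⟨?_, ?_, ?_⟩⟩ <;> linarith
  have hcy' : IsCyc ζ' := by
    intro Θ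
    refine Eq.trans ?_ (hcy (trC Θ))
    apply hζ.congr
    rintro p ⟨hl, hu, hp⟩
    match p, hl with
    | [a, b, d], _ =>
      exact trC_cobd Θ (hu a (by simp)).1 (hu b (by simp)).1 (hu d (by simp)).1
        ((hp a (by simp) b (by simp)).trans (by linarith))
        ((hp a (by simp) d (by simp)).trans (by linarith))
  obtain ⟨β, hβ, hb⟩ := fill (B := {v : E | 1 / 2 ≤ ‖v‖}) hs hcy' (ε := δ / 200) (by positivity)
    (by positivity) x (by simp only [Set.mem_ofPred_eq, hx]; norm_num)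
    (fun a ha => by have := norm_sub_le a x; linarith [ha.1])
    (fun a ha t h0 h1 => (seg_norm ha.2 hx zero_le_one ha.1.ge ha.1.le h0 h1).1)
  let Θ : Co E := fun m => chi τ (m.map c) * phi y (m.headD 0)
  have e1 : ζ' (fun m => Θ (m.map nrm)) = 1 := by
    rw [← h1]
    have : ζ' (fun m => Θ (m.map nrm)) = ζ' Θ := by
      apply hs.congr
      rintro l ⟨-, hl, -⟩
      rw [List.map_congr_left (f := nrm) (g := id) fun a ha => nrm_unit (hl a ha).1, List.map_id]
    rw [this]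
    apply hζ.congr
    rintro p ⟨hl, hu, hp⟩
    match p, hl with
    | [a, b, d], _ =>
      have c1 : c (al a b) = c b := by rcases al_cases a b with e | e <;> simp [e, hc.even]
      have c2 : c (al a d) = c d := by rcases al_cases a d with e | e <;> simp [e, hc.even]
      simp only [trC, Θ, List.map_cons, List.map_nil, hc.even, c1, c2, List.headD_cons]
      by_cases hz : chi τ [c a, c b, c d] = 0
      · simp [hz]
      · have := hy a (hu a (by simp)).1 ((chi_mem hz _).2 (by simp))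
        rw [phi_neg_right (fun h => by rw [h, abs_zero] at this; linarith)]
        have h2 : (2 : Z2) = 0 := rfl
        linear_combination (chi τ [c a, c b, c d] * phi y a) * h2
  rw [← hb] at e1
  obtain ⟨l, ⟨hl, hB, hd⟩, hne⟩ := hβ.exists (Θ := cobd fun m => Θ (m.map nrm))
    (by rw [e1]; exact one_ne_zero)
  rw [cobd_map nrm Θ] at hne
  have hu : ∀ v ∈ l.map nrm, ‖v‖ = 1 := by
    intro v hv
    obtain ⟨u, hu, rfl⟩ := List.mem_map.1 hv
    exact nrm_norm (lt_of_lt_of_le (by norm_num) (hB u hu))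
  have hd' : ∀ v ∈ l.map nrm, ∀ w ∈ l.map nrm, ‖v - w‖ ≤ δ / 2 := by
    intro v hv w hw
    obtain ⟨u, hu, rfl⟩ := List.mem_map.1 hv
    obtain ⟨u', hu', rfl⟩ := List.mem_map.1 hw
    have := nrm_dist (k := 1 / 2) (by norm_num) (hB u hu) (hB u' hu')
    linarith [hd u hu u' hu']
  have hpc : PC (δ / 2) (l.map nrm) := fun v hv w hw => (ld_le_norm _ _).trans (hd' v hv w hw)
  have hlen : (l.map nrm).length = 4 := by simp [hl]
  generalize l.map nrm = m at *
  by_contra hno
  push Not at hno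
  apply hne
  have z1 : cobd (chi τ) (m.map c) = 0 := by
    apply cobd_chi_eq_zero
    intro i hi
    by_contra hz
    obtain ⟨v, hv, rfl⟩ := List.mem_map.1 ((chi_mem hz i).1 (by simp))
    exact hno v (hu v hv) hi (face_of_chi hc le_rfl (by simp) hu hpc hz)
  match m, hlen with
  | [a, b, d, e], _ =>
    simp only [Θ, List.map_cons, List.map_nil, cobd_cons, cobd_nil, add_zero,
      List.headD_cons] at z1 ⊢
    by_cases hz : chi τ [c b, c d, c e] = 0
    · rw [hz] at z1 ⊢
      linear_combination (phi y a) * z1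
    · have ha : c a ∈ τ := by
        by_contra ha
        apply hno a (hu a (by simp)) ha
        apply face_of_chi hc le_rfl (by simp) hu hpc
        simp only [List.map_cons, List.map_nil]
        rw [chi_cons, if_pos (by simp), Finset.erase_insert ha]
        exact hz
      have k1 := hy a (hu a (by simp)) ha
      have k2 := hy b (hu b (by simp)) ((chi_mem hz _).2 (by simp))
      have k3 := abs_inner_sub_le hy1 a b
      have k4 := hd' a (by simp) b (by simp)
      rw [real_inner_comm, real_inner_comm y b] at k3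
      have : phi y b = phi y a := by
        rw [abs_le] at k3
        rcases le_abs'.1 k1 with k1 | k1 <;> rcases le_abs'.1 k2 with k2 | k2
        · rw [phi_of_neg (by linarith), phi_of_neg (by linarith)]
        · exfalso; linarith
        · exfalso; linarith
        · rw [phi_of_pos (by linarith), phi_of_pos (by linarith)]
      rw [this]
      linear_combination (phi y a) * z1

end

theorem plane {δ : ℝ} (hδ : 0 < δ) (hδ1 : δ ≤ 1) {x : Eu 4} (hx : ‖x‖ = 1) :
    ∃ ζ : Ch (Eu 4),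
      Supp (fun p => p.length = 3 ∧ (∀ v ∈ p, ‖v‖ = 1 ∧ ⟪v, x⟫ = 0) ∧ PC (δ / 200) p) ζ ∧
      IsCyc ζ ∧ ∀ c : Eu 4 → ℕ, Valid c δ → ∀ a : Fin 6 → ℕ, Function.Injective a →
        (∀ y, ‖y‖ = 1 → ⟪y, x⟫ = 0 → ∃ i, a i = c y) →
        ζ (fun p => chi {a 0, a 1, a 2} (p.map c)) +
          ζ (fun p => chi {a 3, a 4, a 5} (p.map c)) = 1 := by
  obtain ⟨ζ, hζ, hcy, hk⟩ := rp2 hδ hδ1
  obtain ⟨b, rfl⟩ := exists_onb (n := 3) (by simp) hx
  let ι : Eu 3 → Eu 4 := fun v => v 0 • b 1 + v 1 • b 2 + v 2 • b 3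
  have hbo : ∀ i j, ⟪b i, b j⟫ = if i = j then 1 else 0 := orthonormal_iff_ite.1 b.orthonormal
  have hin : ∀ v w, ⟪ι v, ι w⟫ = ⟪v, w⟫ := by
    intro v w
    simp only [ι, inner_add_left, inner_add_right, real_inner_smul_left, real_inner_smul_right,
      hbo, inner3]
    simp
    ring
  have hno : ∀ v, ‖ι v‖ = ‖v‖ := by
    intro v
    have := hin v v
    rw [real_inner_self_eq_norm_sq, real_inner_self_eq_norm_sq] at this
    exact (pow_left_inj₀ (norm_nonneg _) (norm_nonneg _) two_ne_zero).1 this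
  have hsub : ∀ v w, ι v - ι w = ι (v - w) := by
    intro v w; simp only [ι, PiLp.sub_apply]; module
  have hadd : ∀ v w, ι v + ι w = ι (v + w) := by
    intro v w; simp only [ι, PiLp.add_apply]; module
  have hneg : ∀ v, ι (-v) = -ι v := by
    intro v; simp only [ι, PiLp.neg_apply]; module
  have hor : ∀ v, ⟪ι v, b 0⟫ = 0 := by
    intro v
    simp only [ι, inner_add_left, real_inner_smul_left, hbo]
    simp
  refine ⟨ζ.push ι, hζ.push _ ?_, hcy.push _, ?_⟩
  · rintro l ⟨h1, h2, h3⟩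
    refine ⟨by simp [h1], ?_, ?_⟩
    · intro v hv
      obtain ⟨u, hu, rfl⟩ := List.mem_map.1 hv
      exact ⟨by rw [hno, h2 u hu], hor u⟩
    · intro v hv w hw
      obtain ⟨u, hu, rfl⟩ := List.mem_map.1 hv
      obtain ⟨u', hu', rfl⟩ := List.mem_map.1 hw
      rw [ld, hsub, hadd, hno, hno]
      exact h3 u hu u' hu'
  · intro c hc a ha hcov
    have hinv : ∀ v : Eu 3, ‖v‖ = 1 → a (Function.invFun a (c (ι v))) = c (ι v) :=
      fun v hv => Function.invFun_eq (hcov _ (by rw [hno, hv]) (hor v))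
    have hv : Valid (fun v => Function.invFun a (c (ι v))) δ := by
      refine ⟨fun v => by rw [hneg, hc.even], fun v w hv hw e => ?_⟩
      rw [← hin]
      apply hc.sep _ _ (by rw [hno, hv]) (by rw [hno, hw])
      rw [← hinv v hv, ← hinv w hw, e]
    have key : ∀ S : Finset (Fin 6), ζ.push ι (fun p => chi (S.image a) (p.map c)) =
        ζ (fun p => chi S (p.map fun v => Function.invFun a (c (ι v)))) := by
      intro S
      rw [Ch.push_apply]
      apply hζ.congr
      rintro l ⟨-, h2, -⟩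
      rw [← chi_map ha, List.map_map, List.map_map]
      congr 1
      exact List.map_congr_left fun v hv => (hinv v (h2 v hv)).symm
    have k1 := key {0, 1, 2}
    have k2 := key {3, 4, 5}
    simp only [Finset.image_insert, Finset.image_singleton] at k1 k2
    rw [k1, k2]
    exact hk _ hv

/-- a valid colouring of the unit sphere of `ℝ⁴` with ten colours -/
structure Col (c : Eu 4 → ℕ) (δ : ℝ) : Prop where
  valid : Valid c δ
  pos : 0 < δ
  le_one : δ ≤ 1
  lt : ∀ v, ‖v‖ = 1 → c v < 10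

theorem three_faces {c : Eu 4 → ℕ} {δ : ℝ} (hc : Col c δ) {A B C : ℕ → Prop} (hA : Face c δ A)
    (hB : Face c δ B) (hC : Face c δ C) (h : ∀ i < 10, A i ∨ B i ∨ C i) : False := by
  obtain ⟨x, hx⟩ := hA
  obtain ⟨x', hx'⟩ := hB
  obtain ⟨x'', hx''⟩ := hC
  obtain ⟨y, hy, ho⟩ := exists_unit_orth (k := 3) (by simp) ![x, x', x'']
  have h0 : ⟪x, y⟫ = 0 := ho 0
  have h1 : ⟪x', y⟫ = 0 := ho 1
  have h2 : ⟪x'', y⟫ = 0 := ho 2
  have := hc.pos
  rcases h (c y) (hc.lt y hy) with e | e | e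
  · have := hx.2 y hy e
    rw [h0, abs_zero] at this; linarith
  · have := hx'.2 y hy e
    rw [h1, abs_zero] at this; linarith
  · have := hx''.2 y hy e
    rw [h2, abs_zero] at this; linarith

theorem two_faces {c : Eu 4 → ℕ} {δ : ℝ} (hc : Col c δ) {A B : ℕ → Prop} (hA : Face c δ A)
    (hB : Face c δ B) (p q : ℕ) (h : ∀ i < 10, A i ∨ B i ∨ i = p ∨ i = q) : False := by
  obtain ⟨x, hx⟩ := hA
  obtain ⟨x', hx'⟩ := hB
  obtain ⟨e, he, ho⟩ := exists_unit_orth (k := 2) (by simp) ![x, x']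
  obtain ⟨f, hf, ho'⟩ := exists_unit_orth (k := 3) (by simp) ![x, x', e]
  have hef : ⟪e, f⟫ = 0 := ho' 2
  have := hc.pos
  refine two_colors hc.valid hc.pos he hf hef p q fun θ => ?_
  rcases h _ (hc.lt _ (gc_norm he hf hef θ)) with hh | hh | hh
  · have := hx.2 _ (gc_norm he hf hef θ) hh
    rw [gc_orth (x := x) (ho 0) (ho' 0), abs_zero] at this
    linarith
  · have := hx'.2 _ (gc_norm he hf hef θ) hh
    rw [gc_orth (x := x') (ho 1) (ho' 1), abs_zero] at this
    linarith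
  · exact hh

theorem exists_tet {c : Eu 4 → ℕ} {δ : ℝ} (hc : Col c δ) :
    ∃ l : List ℕ, l.length = 4 ∧ l.Nodup ∧ (∀ i ∈ l, i < 10) ∧ Face c δ (· ∈ l) := by
  classical
  have hδ := hc.pos
  obtain ⟨Z, hZ, -, hk⟩ := kyfan 4 (ε := δ / 64) (by positivity)
  have : ∀ i : ℕ, ∃ r : Eu 4, (∃ v, ‖v‖ = 1 ∧ c v = i) → ‖r‖ = 1 ∧ c r = i := by
    intro i
    by_cases h : ∃ v, ‖v‖ = 1 ∧ c v = i
    · obtain ⟨v, hv⟩ := h
      exact ⟨v, fun _ => hv⟩
    · exact ⟨0, fun h' => absurd h' h⟩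
  choose r hr using this
  have hsh : ∀ u ∈ shell 4 4, (1 / 16 : ℝ) ≤ ‖u‖ := fun u hu => le_trans (by norm_num) hu.1
  have hun : ∀ u ∈ shell 4 4, ‖nrm u‖ = 1 := fun u hu =>
    nrm_norm (lt_of_lt_of_le (by norm_num) (hsh u hu))
  have hsep : ∀ v : Eu 4, ‖v‖ = 1 → δ ≤ |⟪v, r (c v)⟫| := fun v hv =>
    hc.valid.sep _ _ hv (hr _ ⟨v, hv, rfl⟩).1 (hr _ ⟨v, hv, rfl⟩).2.symm
  have hdist : ∀ u ∈ shell 4 4, ∀ u' ∈ shell 4 4, ‖u - u'‖ ≤ δ / 64 →
      ‖nrm u - nrm u'‖ ≤ δ / 2 := by
    intro u hu u' hu' h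
    have := nrm_dist (k := 1 / 16) (by norm_num) (hsh u hu) (hsh u' hu')
    linarith
  have key := hk (fun u => (c (nrm u), decide (⟪nrm u, r (c (nrm u))⟫ < 0)))
    (by
      intro u hu
      simp only [flp, nrm_neg, hc.valid.even, inner_neg_left]
      rcases le_abs'.1 (hsep _ (hun u hu)) with h | h
      · rw [decide_eq_false (by linarith), decide_eq_true (by linarith)]; rfl
      · rw [decide_eq_true (by linarith), decide_eq_false (by linarith)]; rfl)
    (by
      intro u hu u' hu' hd he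
      simp only at he
      have h1 := hsep _ (hun u hu)
      have h2 := hsep _ (hun u' hu')
      have h3 := abs_inner_sub_le (hr _ ⟨_, hun u hu, rfl⟩).1 (nrm u) (nrm u')
      have h4 := hdist u hu u' hu' hd
      simp only [he] at h2 ⊢
      rw [abs_le] at h3
      rcases le_abs'.1 h1 with h1 | h1 <;> rcases le_abs'.1 h2 with h2 | h2
      · rw [decide_eq_true (by linarith), decide_eq_true (by linarith)]
      · exfalso; linarith
      · exfalso; linarith
      · rw [decide_eq_false (by linarith), decide_eq_false (by linarith)])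
  obtain ⟨l, ⟨h1, h2, h3⟩, hne⟩ := hZ.exists (by rw [key]; exact one_ne_zero)
  simp only [srt] at hne
  split_ifs at hne with hnd
  swap
  · exact absurd rfl hne
  rw [List.map_map] at hnd
  refine ⟨_, by simp [h1], hnd, ?_, ?_⟩
  · intro i hi
    obtain ⟨u, hu, rfl⟩ := List.mem_map.1 hi
    exact hc.lt _ (hun u (h2 u hu))
  · match l, h1 with
    | a :: m, _ =>
      refine ⟨nrm a, wit_of_close hc.valid (hun a (h2 a (by simp))) fun i hi => ?_⟩
      obtain ⟨u, hu, rfl⟩ := List.mem_map.1 hi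
      exact ⟨nrm u, hun u (h2 u hu), rfl, (ld_le_norm _ _).trans
        (hdist a (h2 a (by simp)) u (h2 u hu) (h3 a (by simp) u hu))⟩

end Vale.Agent.P052
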