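import Vale.Agent.P052.Chain

/-! Hemisphere chains and the Ky Fan parity lemma. -/

namespace Vale.Agent.P052

open scoped RealInnerProductSpace

abbrev Lb := ℕ × Bool

def kle (x y : Lb) : Prop := x.1 ≤ y.1

instance : DecidableRel kle := fun x y => inferInstanceAs (Decidable (x.1 ≤ y.1))

instance : Std.Total kle := ⟨fun x y => le_total x.1 y.1⟩

instance : IsTrans Lb kle := ⟨fun _ _ _ => le_trans⟩

def insC (a : Lb) (Θ : Co Lb) : Co Lb :=
  fun m => if a.1 ∈ m.map Prod.fst then 0 else Θ (m.orderedInsert kle a)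

def srt (Θ : Co Lb) : Co Lb :=
  fun l => if (l.map Prod.fst).Nodup then Θ (l.insertionSort kle) else 0

theorem srt_cons (Θ : Co Lb) (a : Lb) (l : List Lb) : srt Θ (a :: l) = srt (insC a Θ) l := by
  have h : a.1 ∈ (l.insertionSort kle).map Prod.fst ↔ a.1 ∈ l.map Prod.fst :=
    ((List.perm_insertionSort kle l).map _).mem_iff
  simp only [srt, insC, List.map_cons, List.nodup_cons, List.insertionSort_cons, h]
  by_cases h1 : a.1 ∈ l.map Prod.fst <;> by_cases h2 : (l.map Prod.fst).Nodup <;> simp [h1, h2]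

theorem srt_add (Θ Φ : Co Lb) (l : List Lb) :
    srt (fun m => Θ m + Φ m) l = srt Θ l + srt Φ l := by
  simp only [srt]; split_ifs <;> simp

theorem insC_add (a : Lb) (Θ Φ : Co Lb) (l : List Lb) :
    insC a (fun m => Θ m + Φ m) l = insC a Θ l + insC a Φ l := by
  simp only [insC]; split_ifs <;> simp

theorem sorted_strict {l : List Lb} (h : (l.map Prod.fst).Nodup) :
    (l.insertionSort kle).Pairwise (fun x y => x.1 < y.1) := by
  have h1 : (l.insertionSort kle).Pairwise kle := List.pairwise_insertionSort kle l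
  have h2 : ((l.insertionSort kle).map Prod.fst).Nodup :=
    ((List.perm_insertionSort kle l).map _).nodup_iff.2 h
  rw [List.Nodup, List.pairwise_map] at h2
  exact (h1.and h2).imp fun h => lt_of_le_of_ne h.1 h.2

theorem srt_congr {Θ Φ : Co Lb} {l : List Lb}
    (h : ∀ m : List Lb, m.Perm l → m.Pairwise (fun x y => x.1 < y.1) → Θ m = Φ m) :
    srt Θ l = srt Φ l := by
  simp only [srt]
  split_ifs with h1
  · exact h _ (List.perm_insertionSort kle l) (sorted_strict h1)
  · rfl

theorem insC_lt {a : Lb} (Θ : Co Lb) {m : List Lb} (h : ∀ x ∈ m, a.1 < x.1) :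
    insC a Θ m = Θ (a :: m) := by
  have h1 : a.1 ∉ m.map Prod.fst := by
    intro hh
    obtain ⟨x, hx, e⟩ := List.mem_map.1 hh
    exact absurd (h x hx) (by omega)
  simp only [insC, h1, if_false]
  cases m with
  | nil => rfl
  | cons b m => rw [List.orderedInsert_cons_of_le kle m (h b (by simp)).le]

theorem insC_gt {a b : Lb} (Θ : Co Lb) (m : List Lb) (h : b.1 < a.1) :
    insC a Θ (b :: m) = insC a (fun m' => Θ (b :: m')) m := by
  have h1 : ¬ kle a b := by simp only [kle]; omega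
  have h2 : a.1 ≠ b.1 := by omega
  simp only [insC, List.orderedInsert_of_not_le kle m h1, List.map_cons, List.mem_cons, h2,
    false_or]

theorem insC_cobd (a : Lb) (Θ : Co Lb) {m : List Lb} (hm : m.Pairwise (fun x y => x.1 < y.1))
    (ha : ∀ b ∈ m, b.1 = a.1 → b = a) :
    insC a (cobd Θ) m = Θ m + cobd (insC a Θ) m := by
  induction m generalizing Θ with
  | nil => simp [insC, cobd_cons]
  | cons b l ih =>
    rw [List.pairwise_cons] at hm
    rcases lt_trichotomy a.1 b.1 with h | h | h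
    · have hall : ∀ x ∈ b :: l, a.1 < x.1 := by
        intro x hx
        rcases List.mem_cons.1 hx with rfl | hx
        · exact h
        · exact h.trans (hm.1 x hx)
      rw [insC_lt _ hall, cobd_cons]
      congr 1
      apply cobd_congr
      intro m' hm' _
      rw [insC_lt _ fun x hx => hall x (hm'.subset hx)]
    · have e : b = a := ha b (by simp) h.symm
      subst e
      rw [cobd_cons, insC_lt _ hm.1]
      have : (fun m => insC b Θ (b :: m)) = fun _ => 0 := by
        funext m; simp [insC]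
      rw [this, cobd_zero]
      simp [insC, z2_add_self]
    · rw [insC_gt _ _ h, cobd_cons]
      have e1 : (fun m' => cobd Θ (b :: m')) =
          fun m' => Θ m' + cobd (fun m'' => Θ (b :: m'')) m' := rfl
      have e2 : (fun m => insC a Θ (b :: m)) = insC a (fun m' => Θ (b :: m')) := by
        funext m; exact insC_gt _ _ h
      rw [e1, insC_add, ih _ hm.2 fun x hx => ha x (by simp [hx]), e2]
      ring

theorem cobd_srt (Θ : Co Lb) {l : List Lb} (h : ∀ a ∈ l, ∀ b ∈ l, b.1 = a.1 → b = a) :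
    cobd (srt Θ) l = srt (cobd Θ) l := by
  induction l generalizing Θ with
  | nil => simp [srt]
  | cons a l ih =>
    have e : (fun m => srt Θ (a :: m)) = srt (insC a Θ) := by
      funext m; exact srt_cons _ _ _
    rw [cobd_cons, e, ih _ fun x hx y hy => h x (by simp [hx]) y (by simp [hy]), srt_cons,
      ← srt_add]
    apply srt_congr
    intro m hm hs
    rw [insC_cobd a Θ hs fun b hb => h a (by simp) b (by simp [hm.subset hb])]

def flp (a : Lb) : Lb := (a.1, !a.2)

theorem srt_flp (Θ : Co Lb) (l : List Lb) :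
    srt Θ (l.map flp) = srt (fun m => Θ (m.map flp)) l := by
  have e : (l.map flp).map Prod.fst = l.map Prod.fst := by
    rw [List.map_map]; rfl
  simp only [srt, e]
  rw [List.map_insertionSort kle kle flp l fun _ _ _ _ => Iff.rfl]

def alt : Bool → Co Lb
  | _, [] => 1
  | s, a :: l => if a.2 = s then alt (!s) l else 0

theorem alt_flp (s : Bool) (l : List Lb) : alt s (l.map flp) = alt (!s) l := by
  induction l generalizing s with
  | nil => rfl
  | cons a l ih =>
    simp only [List.map_cons, alt, flp, ih]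
    cases a.2 <;> cases s <;> simp

theorem cobd_alt (s : Bool) (l : List Lb) : cobd (alt s) l = alt s l + alt (!s) l := by
  induction l generalizing s with
  | nil => simp only [cobd_nil, alt]; rfl
  | cons a l ih =>
    rw [cobd_cons]
    by_cases h : a.2 = s
    · have e : (fun m => alt s (a :: m)) = alt (!s) := by funext m; simp [alt, h]
      rw [e, ih]
      simp only [alt, h, Bool.not_not, if_true, Bool.eq_not_self, if_false, add_zero]
      have h2 : (2 : Z2) = 0 := rfl
      linear_combination (alt s l) * h2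
    · have e : (fun m => alt s (a :: m)) = fun _ => 0 := by funext m; simp [alt, h]
      rw [e, cobd_zero]
      have h' : a.2 = !s := by revert h; cases a.2 <;> cases s <;> simp
      simp [alt, h']

theorem seg_norm {V : Type*} [NormedAddCommGroup V] [InnerProductSpace ℝ V] {a p : V}
    (h : ⟪a, p⟫ = 0) (hp : ‖p‖ = 1) {c : ℝ} (hc0 : 0 ≤ c) (hc : c ≤ ‖a‖) (ha : ‖a‖ ≤ 1)
    {t : ℝ} (h0 : 0 ≤ t) (h1 : t ≤ 1) :
    c / 2 ≤ ‖(1 - t) • a + t • p‖ ∧ ‖(1 - t) • a + t • p‖ ≤ 1 := by
  have e : ‖(1 - t) • a + t • p‖ ^ 2 = (1 - t) ^ 2 * ‖a‖ ^ 2 + t ^ 2 := by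
    rw [norm_add_sq_real, norm_smul, norm_smul, real_inner_smul_left, real_inner_smul_right, h, hp,
      Real.norm_eq_abs, Real.norm_eq_abs, mul_pow, mul_pow, sq_abs, sq_abs]
    ring
  have hc2 : c ^ 2 ≤ ‖a‖ ^ 2 := by gcongr
  have ha2 : ‖a‖ ^ 2 ≤ 1 := by nlinarith [norm_nonneg a]
  constructor
  · apply le_of_sq_le_sq _ (norm_nonneg _)
    rw [e]
    have : c ^ 2 * t ^ 2 ≤ t ^ 2 := by nlinarith [sq_nonneg t]
    have : (1 - t) ^ 2 * c ^ 2 ≤ (1 - t) ^ 2 * ‖a‖ ^ 2 := by gcongr
    nlinarith [sq_nonneg (1 - 2 * t), sq_nonneg c]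
  · apply le_of_sq_le_sq _ zero_le_one
    rw [e]
    have : (1 - t) ^ 2 * ‖a‖ ^ 2 ≤ (1 - t) ^ 2 * 1 := by gcongr
    nlinarith

abbrev Eu (m : ℕ) := EuclideanSpace ℝ (Fin m)

def shell (m k : ℕ) : Set (Eu m) :=
  {u | (1 / 2 : ℝ) ^ k ≤ ‖u‖ ∧ ‖u‖ ≤ 1 ∧ ∀ j : Fin m, k ≤ j.val → u j = 0}

theorem shell_neg {m k : ℕ} {u : Eu m} (h : u ∈ shell m k) : -u ∈ shell m k :=
  ⟨by rw [norm_neg]; exact h.1, by rw [norm_neg]; exact h.2.1, fun j hj => by simp [h.2.2 j hj]⟩

theorem shell_mono {m k k' : ℕ} (hk : k ≤ k') {u : Eu m} (h : u ∈ shell m k) : u ∈ shell m k' :=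
  ⟨le_trans (pow_le_pow_of_le_one (by norm_num) (by norm_num) hk) h.1, h.2.1,
    fun j hj => h.2.2 j (hk.trans hj)⟩

theorem hemi (m : ℕ) {ε : ℝ} (hε : 0 < ε) (k : ℕ) (hk : k ≤ m) :
    ∃ Z : Ch (Eu m), Supp (Sm (shell m k) (k * ε) k) Z ∧ IsCyc Z ∧
      (∀ Θ : Co (Eu m), Z (fun l => Θ (l.map Neg.neg)) = Z Θ) ∧
      ∀ Θ : Co (Eu m), (∀ j l, Sm (shell m m) (m * ε) j l →
        cobd Θ l = Θ l + Θ (l.map Neg.neg)) → Z Θ = Θ [] := by
  induction k with
  | zero =>
    refine ⟨AddMonoidHom.mk' (fun Θ => Θ []) (fun _ _ => rfl), ?_, ?_, ?_, ?_⟩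
    · intro Θ h
      exact h [] ⟨rfl, by simp, by simp⟩
    · intro Θ; rfl
    · intro Θ; rfl
    · intro Θ _; rfl
  | succ k ih =>
    obtain ⟨Z, hZ, hc, hs, hk'⟩ := ih (by omega)
    have hp1 : ‖(EuclideanSpace.single (⟨k, by omega⟩ : Fin m) (1 : ℝ) : Eu m)‖ = 1 := by simp
    have hpo : ∀ a ∈ shell m k,
        ⟪a, (EuclideanSpace.single (⟨k, by omega⟩ : Fin m) (1 : ℝ) : Eu m)⟫ = 0 := by
      intro a ha
      rw [EuclideanSpace.inner_single_right, ha.2.2 _ le_rfl]; simp
    obtain ⟨β, hβ, hb⟩ := fill (B := shell m (k + 1)) hZ hc hε (by positivity)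
      (EuclideanSpace.single (⟨k, by omega⟩ : Fin m) (1 : ℝ))
      ⟨by rw [hp1]; exact pow_le_one₀ (by norm_num) (by norm_num), hp1.le, fun j hj => by
        have : j ≠ ⟨k, by omega⟩ := fun e => by rw [e] at hj; simp at hj
        simp [this]⟩
      (fun a ha => by
        have := norm_sub_le a (EuclideanSpace.single (⟨k, by omega⟩ : Fin m) (1 : ℝ))
        linarith [ha.2.1])
      (fun a ha t h0 h1 => by
        have := seg_norm (hpo a ha) hp1 (by positivity) ha.1 ha.2.1 h0 h1
        refine ⟨by rw [pow_succ]; linarith [this.1], this.2, fun j hj => ?_⟩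
        have : j ≠ ⟨k, by omega⟩ := fun e => by rw [e] at hj; simp at hj
        simp [this, ha.2.2 j (by omega)])
    have er : (k : ℝ) * ε + ε = ((k + 1 : ℕ) : ℝ) * ε := by push_cast; ring
    rw [er] at hβ
    refine ⟨β + β.push Neg.neg, ?_, ?_, ?_, ?_⟩
    · intro Θ h
      rw [AddMonoidHom.add_apply, hβ Θ h, zero_add]
      refine (hβ.push (Q := Sm (shell m (k + 1)) (((k + 1 : ℕ) : ℝ) * ε) (k + 1)) _ ?_) Θ h
      rintro l ⟨h1, h2, h3⟩
      refine ⟨by simp [h1], ?_, ?_⟩
      · intro a ha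
        obtain ⟨b, hb, rfl⟩ := List.mem_map.1 ha
        exact shell_neg (h2 b hb)
      · intro a ha a' ha'
        obtain ⟨b, hb, rfl⟩ := List.mem_map.1 ha
        obtain ⟨b', hb', rfl⟩ := List.mem_map.1 ha'
        rw [neg_sub_neg, norm_sub_rev]
        exact h3 b hb b' hb'
    · intro Θ
      rw [AddMonoidHom.add_apply, Ch.push_apply, hb]
      have : (fun l : List (Eu m) => cobd Θ (l.map Neg.neg)) =
          cobd (fun l => Θ (l.map Neg.neg)) := by funext l; rw [cobd_map]
      rw [this, hb, hs, z2_add_self]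
    · intro Θ
      simp only [AddMonoidHom.add_apply, Ch.push_apply, List.map_map]
      have : (fun l : List (Eu m) => Θ (l.map (Neg.neg ∘ Neg.neg))) = Θ := by
        funext l
        have : (Neg.neg ∘ Neg.neg : Eu m → Eu m) = id := by funext x; simp
        rw [this, List.map_id]
      rw [this, add_comm]
    · intro Θ h
      rw [AddMonoidHom.add_apply, Ch.push_apply, ← ch_add, ← hk' Θ h, ← hb]
      apply hβ.congr
      rintro l ⟨h1, h2, h3⟩
      refine (h (k + 1) l ⟨h1, fun a ha => shell_mono hk (h2 a ha), fun a ha b hb => ?_⟩).symm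
      refine (h3 a ha b hb).trans ?_
      gcongr

theorem kyfan (m : ℕ) {ε : ℝ} (hε : 0 < ε) :
    ∃ Z : Ch (Eu m), Supp (Sm (shell m m) ε m) Z ∧ IsCyc Z ∧
      ∀ lab : Eu m → Lb, (∀ u ∈ shell m m, lab (-u) = flp (lab u)) →
        (∀ u ∈ shell m m, ∀ u' ∈ shell m m, ‖u - u'‖ ≤ ε → (lab u').1 = (lab u).1 →
          lab u' = lab u) → Z (fun l => srt (alt false) (l.map lab)) = 1 := by
  obtain ⟨Z, hZ, hc, -, hk⟩ := hemi m (ε := ε / (m + 1)) (by positivity) m le_rfl
  have hle : (m : ℝ) * (ε / (m + 1)) ≤ ε := by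
    rw [mul_div_assoc', div_le_iff₀ (by positivity)]
    nlinarith
  refine ⟨Z, hZ.mono fun l h => ⟨h.1, h.2.1, fun a ha b hb => (h.2.2 a ha b hb).trans hle⟩, hc,
    fun lab h1 h2 => ?_⟩
  rw [hk]
  · simp [srt, alt]
  · rintro j l ⟨-, hl, hr⟩
    have e : (l.map Neg.neg).map lab = (l.map lab).map flp := by
      rw [List.map_map, List.map_map]
      apply List.map_congr_left
      intro a ha
      exact h1 a (hl a ha)
    rw [cobd_map lab (srt (alt false)), cobd_srt, e, srt_flp, ← srt_add]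
    · congr 1
      funext m
      rw [cobd_alt, alt_flp]
    · intro a ha b hb hab
      obtain ⟨u, hu, rfl⟩ := List.mem_map.1 ha
      obtain ⟨u', hu', rfl⟩ := List.mem_map.1 hb
      exact h2 u (hl u hu) u' (hl u' hu') ((hr u hu u' hu').trans hle) hab

end Vale.Agent.P052
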