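import Vale.Agent.P052.CertC

/-! The Veronese set in dimension nine and the passage to higher dimensions. -/

namespace Vale.Agent.P052

open scoped RealInnerProductSpace

theorem no_col {c : Eu 4 → ℕ} {δ : ℝ} (hc : Col c δ) : False := by
  obtain ⟨l, hl, hnd, hlt, hf⟩ := exists_tet hc
  let p := l ++ (List.range 10).filter (· ∉ l)
  have hp : p.Perm (List.range 10) := by
    rw [List.perm_ext_iff_of_nodup _ List.nodup_range]
    · intro a
      simp only [p, List.mem_append, List.mem_filter, List.mem_range, decide_eq_true_eq]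
      constructor
      · rintro (h | h)
        · exact hlt a h
        · exact h.1
      · intro h
        by_cases ha : a ∈ l
        · exact Or.inl ha
        · exact Or.inr ⟨h, ha⟩
    · refine List.Nodup.append hnd (List.nodup_range.filter _) ?_
      intro a ha hb
      simp only [List.mem_filter, decide_eq_true_eq] at hb
      exact hb.2 ha
  have hlen : p.length = 10 := by simpa using hp.length_eq
  obtain ⟨x, hx, hx'⟩ := recolor hc (π := fun i => p.getD i 0) (fun i hi => by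
      rw [List.getD_eq_getElem _ _ (by omega)]
      exact List.mem_range.1 (hp.subset (List.getElem_mem _)))
    (fun j hj => by
      obtain ⟨i, hi, e⟩ := List.getElem_of_mem (hp.symm.subset (List.mem_range.2 hj))
      exact ⟨i, by omega, by rw [List.getD_eq_getElem _ _ hi, e]⟩) TV9
  simp only [T9, List.mem_cons, List.not_mem_nil, or_false] at hx
  subst hx
  have e : List.map (fun i => p.getD i 0) [0, 1, 2, 3] = l := by
    simp only [p]
    match l, hl with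
    | [a, b, d, e], _ => rfl
  simp only [e] at hx'
  exact absurd (hx'.1 hf) (by decide)

noncomputable def ver (x : Eu 4) : Eu 9 :=
  !₂[√2 * x 0 * x 1, √2 * x 0 * x 2, √2 * x 0 * x 3, √2 * x 1 * x 2, √2 * x 1 * x 3,
    √2 * x 2 * x 3, (x 0 ^ 2 + x 1 ^ 2 - x 2 ^ 2 - x 3 ^ 2) / 2,
    (x 0 ^ 2 - x 1 ^ 2 + x 2 ^ 2 - x 3 ^ 2) / 2, (x 0 ^ 2 - x 1 ^ 2 - x 2 ^ 2 + x 3 ^ 2) / 2]

theorem ver_neg (x : Eu 4) : ver (-x) = ver x := by
  simp only [ver, PiLp.neg_apply, mul_neg, neg_mul, neg_neg, even_two, Even.neg_pow]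

theorem inner4 (v w : Eu 4) : ⟪v, w⟫ = v 0 * w 0 + v 1 * w 1 + v 2 * w 2 + v 3 * w 3 := by
  simp only [PiLp.inner_apply, Fin.sum_univ_four, RCLike.inner_apply, conj_trivial]
  ring

theorem ver_inner (x y : Eu 4) : ⟪ver x, ver y⟫ = ⟪x, y⟫ ^ 2 - ⟪x, x⟫ * ⟪y, y⟫ / 4 := by
  rw [inner4, inner4, inner4]
  simp only [PiLp.inner_apply, Fin.sum_univ_succ, RCLike.inner_apply, conj_trivial, ver]
  simp only [Finset.univ_eq_empty, Finset.sum_empty, Matrix.cons_val_zero, Matrix.cons_val_succ]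
  have h : √2 ^ 2 = 2 := Real.sq_sqrt (by norm_num)
  linear_combination (x 0 * x 1 * y 0 * y 1 + x 0 * x 2 * y 0 * y 2 + x 0 * x 3 * y 0 * y 3 +
    x 1 * x 2 * y 1 * y 2 + x 1 * x 3 * y 1 * y 3 + x 2 * x 3 * y 2 * y 3) * h

theorem ver_norm {x : Eu 4} (hx : ‖x‖ = 1) : ‖ver x‖ ^ 2 = 3 / 4 := by
  rw [← real_inner_self_eq_norm_sq, ver_inner, real_inner_self_eq_norm_sq, hx]; norm_num

theorem ver_dist {x y : Eu 4} (hx : ‖x‖ = 1) (hy : ‖y‖ = 1) :
    ‖ver x - ver y‖ ^ 2 = 2 - 2 * ⟪x, y⟫ ^ 2 := by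
  rw [norm_sub_sq_real, ver_norm hx, ver_norm hy, ver_inner, real_inner_self_eq_norm_sq,
    real_inner_self_eq_norm_sq, hx, hy]
  ring

theorem ver_cont : Continuous ver := by
  unfold ver
  refine (PiLp.continuous_toLp 2 _).comp ?_
  refine continuous_pi fun i => ?_
  fin_cases i <;> simp <;> fun_prop

/-- the inductive invariant -/
def Good (d : ℕ) : Prop :=
  ∃ (Y : Set (Eu d)) (r : ℝ), IsCompact Y ∧ r ≤ 1 ∧ (∀ y ∈ Y, ‖y‖ ^ 2 = r) ∧
    (∀ y ∈ Y, ∀ y' ∈ Y, ‖y - y'‖ ^ 2 ≤ 2) ∧ (∃ y ∈ Y, ∃ y' ∈ Y, ‖y - y'‖ ^ 2 = 2) ∧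
    ∀ (col : Eu d → Fin (d + 1)) (ρ : ℝ), ρ < 2 →
      ¬ ∀ y ∈ Y, ∀ y' ∈ Y, col y = col y' → ‖y - y'‖ ^ 2 ≤ ρ

theorem good_nine : Good 9 := by
  refine ⟨ver '' Metric.sphere 0 1, 3 / 4, (isCompact_sphere _ _).image ver_cont, by norm_num,
    ?_, ?_, ?_, ?_⟩
  · rintro _ ⟨x, hx, rfl⟩
    exact ver_norm (by simpa using hx)
  · rintro _ ⟨x, hx, rfl⟩ _ ⟨y, hy, rfl⟩
    rw [ver_dist (by simpa using hx) (by simpa using hy)]
    nlinarith [sq_nonneg ⟪x, y⟫]
  · refine ⟨_, ⟨EuclideanSpace.single 0 1, by simp, rfl⟩, _,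
      ⟨EuclideanSpace.single 1 1, by simp, rfl⟩, ?_⟩
    rw [ver_dist (by simp) (by simp), inner4]
    simp
  · intro col ρ hρ h
    refine no_col (c := fun x => (col (ver x)).val) (δ := min 1 √(1 - ρ / 2))
      ⟨⟨fun v => by rw [ver_neg], fun v w hv hw e => ?_⟩,
        lt_min one_pos (Real.sqrt_pos.2 (by linarith)), min_le_left _ _, fun v _ => (col _).2⟩
    have := h _ ⟨v, by simpa using hv, rfl⟩ _ ⟨w, by simpa using hw, rfl⟩ (Fin.ext e)
    rw [ver_dist hv hw] at this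
    refine (min_le_right _ _).trans ?_
    rw [← Real.sqrt_sq_eq_abs]
    exact Real.sqrt_le_sqrt (by linarith)

noncomputable def emb {d : ℕ} (t : ℝ) (y : Eu d) : Eu (d + 1) := WithLp.toLp 2 (Fin.cons t y.ofLp)

theorem emb_norm {d : ℕ} (t : ℝ) (y : Eu d) : ‖emb t y‖ ^ 2 = t ^ 2 + ‖y‖ ^ 2 := by
  rw [EuclideanSpace.norm_sq_eq, EuclideanSpace.norm_sq_eq, Fin.sum_univ_succ]
  simp [emb]

theorem emb_sub {d : ℕ} (t t' : ℝ) (y y' : Eu d) : emb t y - emb t' y' = emb (t - t') (y - y') := by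
  ext i
  refine Fin.cases ?_ (fun j => ?_) i <;> simp [emb]

theorem emb_cont {d : ℕ} (t : ℝ) : Continuous (emb (d := d) t) := by
  unfold emb
  refine (PiLp.continuous_toLp 2 _).comp ?_
  refine continuous_pi fun i => ?_
  refine Fin.cases ?_ (fun j => ?_) i
  · simpa using continuous_const
  · simp only [Fin.cons_succ]; fun_prop

theorem good_succ {d : ℕ} (h : Good d) : Good (d + 1) := by
  obtain ⟨Y, r, hc, hr, hn, hd, ⟨y0, hy0, y1, hy1, h01⟩, hcol⟩ := h
  obtain ⟨k, hk0, hk⟩ : ∃ k : ℝ, 0 < k ∧ k ^ 2 = 2 - r :=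
    ⟨√(2 - r), Real.sqrt_pos.2 (by linarith), Real.sq_sqrt (by linarith)⟩
  have hk1 : 1 ≤ k := by nlinarith
  have hpd : ∀ y ∈ Y, ‖emb (1 / k) 0 - emb (1 / k - k) y‖ ^ 2 = 2 := by
    intro y hy
    rw [emb_sub, emb_norm, zero_sub, norm_neg, hn y hy]
    linear_combination hk
  have hyy : ∀ y y' : Eu d, ‖emb (1 / k - k) y - emb (1 / k - k) y'‖ ^ 2 = ‖y - y'‖ ^ 2 := by
    intro y y'
    rw [emb_sub, emb_norm]; ring
  refine ⟨insert (emb (1 / k) 0) (emb (1 / k - k) '' Y), (1 / k) ^ 2,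
    (hc.image (emb_cont _)).insert _, ?_, ?_, ?_, ?_, ?_⟩
  · rw [div_pow, one_pow, div_le_one (by positivity)]; nlinarith
  · rintro _ (rfl | ⟨y, hy, rfl⟩)
    · rw [emb_norm]; simp
    · rw [emb_norm, hn y hy]
      have : 1 / k * k = 1 := by field_simp
      linear_combination hk - 2 * this
  · rintro _ (rfl | ⟨y, hy, rfl⟩) _ (rfl | ⟨y', hy', rfl⟩)
    · simp
    · exact (hpd y' hy').le
    · rw [norm_sub_rev]; exact (hpd y hy).le
    · rw [hyy]; exact hd y hy y' hy'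
  · exact ⟨_, Or.inl rfl, _, Or.inr ⟨y0, hy0, rfl⟩, hpd y0 hy0⟩
  · intro col ρ hρ h
    have : ∀ y : Eu d, ∃ z : Fin (d + 1), y ∈ Y →
        (col (emb (1 / k) 0)).succAbove z = col (emb (1 / k - k) y) := by
      intro y
      by_cases hy : y ∈ Y
      · have : col (emb (1 / k - k) y) ≠ col (emb (1 / k) 0) := fun e => by
          have := h _ (Or.inl rfl) _ (Or.inr ⟨y, hy, rfl⟩) e.symm
          rw [hpd y hy] at this
          linarith
        obtain ⟨z, hz⟩ := Fin.exists_succAbove_eq this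
        exact ⟨z, fun _ => hz⟩
      · exact ⟨0, fun h => absurd h hy⟩
    choose g hg using this
    refine hcol g ρ hρ fun y hy y' hy' e => ?_
    rw [← hyy]
    refine h _ (Or.inr ⟨y, hy, rfl⟩) _ (Or.inr ⟨y', hy', rfl⟩) ?_
    rw [← hg y hy, ← hg y' hy', e]

theorem good_ge {d : ℕ} (hd : 9 ≤ d) : Good d := by
  induction d, hd using Nat.le_induction with
  | base => exact good_nine
  | succ n _ ih => exact good_succ ih

theorem borsuk_fails (d : ℕ) (hd : 9 ≤ d) :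
    ∃ Y : Set (EuclideanSpace ℝ (Fin d)), IsCompact Y ∧ Bornology.IsBounded Y ∧
      0 < Metric.diam Y ∧
      ¬ ∃ P : Fin (d + 1) → Set (EuclideanSpace ℝ (Fin d)),
        (⋃ i, P i) = Y ∧ ∀ i, Metric.diam (P i) < Metric.diam Y := by
  obtain ⟨Y, r, hc, -, -, hle, ⟨y0, hy0, y1, hy1, h01⟩, hcol⟩ := good_ge hd
  have hb := hc.isBounded
  refine ⟨Y, hc, hb, ?_, ?_⟩
  · refine lt_of_lt_of_le ?_ (Metric.dist_le_diam_of_mem hb hy0 hy1)
    rw [dist_eq_norm]
    refine lt_of_le_of_ne (norm_nonneg _) fun e => ?_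
    rw [← e] at h01
    norm_num at h01
  · rintro ⟨P, hP, hlt⟩
    have hD : Metric.diam Y ≤ √2 := by
      refine Metric.diam_le_of_forall_dist_le (Real.sqrt_nonneg _) fun y hy y' hy' => ?_
      rw [dist_eq_norm]
      exact Real.le_sqrt_of_sq_le (hle y hy y' hy')
    obtain ⟨i0, hi0⟩ := Finite.exists_max fun i => Metric.diam (P i)
    have : ∀ y : Eu d, ∃ i, y ∈ Y → y ∈ P i := by
      intro y
      by_cases hy : y ∈ Y
      · rw [← hP] at hy
        obtain ⟨i, hi⟩ := Set.mem_iUnion.1 hy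
        exact ⟨i, fun _ => hi⟩
      · exact ⟨0, fun h => absurd h hy⟩
    choose col hcolP using this
    refine hcol col (Metric.diam (P i0) ^ 2) ?_ fun y hy y' hy' e => ?_
    · have h1 := (hlt i0).trans_le hD
      have h2 : √2 ^ 2 = 2 := Real.sq_sqrt (by norm_num)
      rw [← h2]
      gcongr
    · have hbP : Bornology.IsBounded (P (col y)) :=
        hb.subset (by rw [← hP]; exact Set.subset_iUnion _ _)
      have := Metric.dist_le_diam_of_mem hbP (hcolP y hy) (by rw [e]; exact hcolP y' hy')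
      rw [dist_eq_norm] at this
      have h3 := this.trans (hi0 _)
      gcongr

end Vale.Agent.P052
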