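import Vale.Agent.P052.KyFan
import Vale.Agent.P052.Chi

/-! The Ky Fan cycle on the sphere of symmetric 3 by 3 matrices. -/

namespace Vale.Agent.P052

open scoped RealInnerProductSpace

def Bf (u : Eu 6) (v w : Eu 3) : ℝ :=
  u 0 * v 0 * w 0 + u 1 * v 1 * w 1 + u 2 * v 2 * w 2 + u 3 * v 0 * w 1 + u 3 * v 1 * w 0 +
    u 4 * v 0 * w 2 + u 4 * v 2 * w 0 + u 5 * v 1 * w 2 + u 5 * v 2 * w 1

theorem Bf_comm (u : Eu 6) (v w : Eu 3) : Bf u v w = Bf u w v := by
  simp only [Bf]; ring

theorem Bf_sub (u u' : Eu 6) (v w : Eu 3) : Bf (u - u') v w = Bf u v w - Bf u' v w := by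
  simp only [Bf, PiLp.sub_apply]; ring

theorem Bf_neg (u : Eu 6) (v w : Eu 3) : Bf (-u) v w = - Bf u v w := by
  simp only [Bf, PiLp.neg_apply]; ring

theorem abs_coord_le {m : ℕ} (u : Eu m) (i : Fin m) : |u i| ≤ ‖u‖ := by
  simpa using PiLp.norm_apply_le u i

theorem abs_Bf_le (u : Eu 6) {v w : Eu 3} (hv : ‖v‖ = 1) (hw : ‖w‖ = 1) :
    |Bf u v w| ≤ 9 * ‖u‖ := by
  have key : ∀ i a b, -‖u‖ ≤ u i * v a * w b ∧ u i * v a * w b ≤ ‖u‖ := by
    intro i a b
    rw [← abs_le, abs_mul, abs_mul]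
    have h1 := abs_coord_le u i
    have h2 := abs_coord_le v a
    have h3 := abs_coord_le w b
    rw [hv] at h2
    rw [hw] at h3
    calc |u i| * |v a| * |w b| ≤ ‖u‖ * 1 * 1 := by gcongr
      _ = ‖u‖ := by ring
  rw [abs_le, Bf]
  constructor <;>
  linarith [key 0 0 0, key 1 1 1, key 2 2 2, key 3 0 1, key 3 1 0, key 4 0 2, key 4 2 0,
    key 5 1 2, key 5 2 1]

theorem inner3 (v w : Eu 3) : ⟪v, w⟫ = v 0 * w 0 + v 1 * w 1 + v 2 * w 2 := by
  simp only [PiLp.inner_apply, Fin.sum_univ_three, RCLike.inner_apply, conj_trivial]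
  ring

theorem exists_eig (u : Eu 6) {c : ℝ} (hc0 : 0 < c) (hc : c ≤ ‖u‖) :
    ∃ v : Eu 3, ‖v‖ = 1 ∧ ∃ μ : ℝ, c / 9 ≤ |μ| ∧ ∀ w, Bf u v w = μ * ⟪v, w⟫ := by
  let A : Matrix (Fin 3) (Fin 3) ℝ := !![u 0, u 3, u 4; u 3, u 1, u 5; u 4, u 5, u 2]
  have hA : A.IsHermitian := by
    ext i j
    fin_cases i <;> fin_cases j <;> simp [A]
  have hb : ∀ j w, Bf u (hA.eigenvectorBasis j) w =
      hA.eigenvalues j * ⟪hA.eigenvectorBasis j, w⟫ := by
    intro j w
    have h := hA.mulVec_eigenvectorBasis j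
    have h0 := congrFun h 0
    have h1 := congrFun h 1
    have h2 := congrFun h 2
    simp [A, Matrix.mulVec, dotProduct, Fin.sum_univ_three] at h0 h1 h2
    rw [inner3, Bf]
    linear_combination w 0 * h0 + w 1 * h1 + w 2 * h2
  by_contra hno
  have hμ : ∀ j, |hA.eigenvalues j| < c / 9 := by
    intro j
    by_contra hj
    exact hno ⟨_, hA.eigenvectorBasis.orthonormal.1 j, _, not_lt.1 hj, hb j⟩
  have hB : ∀ v w : Eu 3, ‖v‖ = 1 → ‖w‖ = 1 → |Bf u v w| < c / 3 := by
    intro v w hv hw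
    have e := hA.eigenvectorBasis.sum_repr' v
    rw [Fin.sum_univ_three] at e
    have e2 : Bf u v w = ⟪hA.eigenvectorBasis 0, v⟫ * Bf u (hA.eigenvectorBasis 0) w +
        ⟪hA.eigenvectorBasis 1, v⟫ * Bf u (hA.eigenvectorBasis 1) w +
        ⟪hA.eigenvectorBasis 2, v⟫ * Bf u (hA.eigenvectorBasis 2) w := by
      conv_lhs => rw [← e]
      simp only [Bf, PiLp.add_apply, PiLp.smul_apply, smul_eq_mul]
      ring
    have key : ∀ j, |⟪hA.eigenvectorBasis j, v⟫ * Bf u (hA.eigenvectorBasis j) w| < c / 9 := by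
      intro j
      have h1 := abs_real_inner_le_norm (hA.eigenvectorBasis j) v
      have h2 := abs_real_inner_le_norm (hA.eigenvectorBasis j) w
      rw [hA.eigenvectorBasis.orthonormal.1 j] at h1 h2
      rw [hv] at h1
      rw [hw] at h2
      rw [hb, abs_mul, abs_mul]
      calc _ ≤ 1 * 1 * (|hA.eigenvalues j| * (1 * 1)) := by gcongr
        _ = |hA.eigenvalues j| := by ring
        _ < c / 9 := hμ j
    have k0 := abs_lt.1 (key 0)
    have k1 := abs_lt.1 (key 1)
    have k2 := abs_lt.1 (key 2)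
    rw [e2, abs_lt]
    constructor <;> linarith
  have hs : ∀ a : Fin 3, ‖(EuclideanSpace.single a (1 : ℝ) : Eu 3)‖ = 1 := fun a => by simp
  have c0 := hB _ _ (hs 0) (hs 0)
  have c1 := hB _ _ (hs 1) (hs 1)
  have c2 := hB _ _ (hs 2) (hs 2)
  have c3 := hB _ _ (hs 0) (hs 1)
  have c4 := hB _ _ (hs 0) (hs 2)
  have c5 := hB _ _ (hs 1) (hs 2)
  simp [Bf] at c0 c1 c2 c3 c4 c5
  have hn := EuclideanSpace.norm_sq_eq u
  rw [Fin.sum_univ_six] at hn
  simp only [Real.norm_eq_abs] at hn
  have hsq : ∀ x : ℝ, |x| < c / 3 → |x| ^ 2 < c ^ 2 / 9 := fun x hx => by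
    nlinarith [abs_nonneg x]
  have : c ^ 2 ≤ ‖u‖ ^ 2 := by gcongr
  nlinarith [hsq _ c0, hsq _ c1, hsq _ c2, hsq _ c3, hsq _ c4, hsq _ c5]

def EigP (u : Eu 6) (v : Eu 3) : Prop :=
  ‖v‖ = 1 ∧ ∃ μ : ℝ, 1 / 576 ≤ |μ| ∧ ∀ w, Bf u v w = μ * ⟪v, w⟫

theorem EigP_neg (u : Eu 6) : EigP (-u) = EigP u := by
  funext v
  apply propext
  constructor
  · rintro ⟨h, μ, h1, h2⟩
    exact ⟨h, -μ, by rwa [abs_neg], fun w => by have := h2 w; rw [Bf_neg] at this; linarith⟩
  · rintro ⟨h, μ, h1, h2⟩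
    exact ⟨h, -μ, by rwa [abs_neg], fun w => by rw [Bf_neg, h2 w]; ring⟩

noncomputable def sel (u : Eu 6) : Eu 3 := Classical.epsilon (EigP u)

theorem sel_neg (u : Eu 6) : sel (-u) = sel u := by rw [sel, sel, EigP_neg]

theorem sel_spec {u : Eu 6} (hu : u ∈ shell 6 6) : EigP u (sel u) := by
  apply Classical.epsilon_spec
  obtain ⟨v, hv, μ, h1, h2⟩ := exists_eig u (by positivity) hu.1
  exact ⟨v, hv, μ, by linarith, h2⟩

open Classical in
noncomputable def sg (u : Eu 6) : Bool := decide (0 < Bf u (sel u) (sel u))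

theorem sg_spec {u : Eu 6} (hu : u ∈ shell 6 6) : ∃ μ : ℝ, (∀ w, Bf u (sel u) w = μ * ⟪sel u, w⟫)
    ∧ ((sg u = true ∧ 1 / 576 ≤ μ) ∨ (sg u = false ∧ μ ≤ -(1 / 576))) := by
  obtain ⟨h, μ, h1, h2⟩ := sel_spec hu
  refine ⟨μ, h2, ?_⟩
  have e : Bf u (sel u) (sel u) = μ := by rw [h2, real_inner_self_eq_norm_sq, h]; ring
  rw [sg, e]
  rcases le_abs'.1 h1 with h3 | h3
  · right; exact ⟨by simp; linarith, h3⟩
  · left; exact ⟨by simp; linarith, h3⟩

theorem sg_neg {u : Eu 6} (hu : u ∈ shell 6 6) : sg (-u) = !sg u := by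
  obtain ⟨h, μ, h1, h2⟩ := sel_spec hu
  have e : Bf u (sel u) (sel u) = μ := by rw [h2, real_inner_self_eq_norm_sq, h]; ring
  rw [sg, sg, sel_neg, Bf_neg, e]
  rcases le_abs'.1 h1 with h3 | h3
  · rw [decide_eq_true (by linarith), decide_eq_false (by linarith)]; rfl
  · rw [decide_eq_false (by linarith), decide_eq_true (by linarith)]; rfl

theorem near_orth {u u' : Eu 6} (hu : u ∈ shell 6 6) (hu' : u' ∈ shell 6 6) (h : sg u = true)
    (h' : sg u' = false) : |⟪sel u, sel u'⟫| ≤ 2592 * ‖u - u'‖ := by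
  obtain ⟨μ, h1, h2⟩ := sg_spec hu
  obtain ⟨μ', h1', h2'⟩ := sg_spec hu'
  simp only [h, h', true_and, false_and, or_false, false_or, Bool.true_eq_false,
    Bool.false_eq_true] at h2 h2'
  have e : Bf (u - u') (sel u) (sel u') = (μ - μ') * ⟪sel u, sel u'⟫ := by
    rw [Bf_sub, h1, Bf_comm, h1', real_inner_comm]; ring
  have h3 := abs_Bf_le (u - u') (sel_spec hu).1 (sel_spec hu').1
  rw [e, abs_mul, abs_of_pos (by linarith)] at h3
  nlinarith [abs_nonneg ⟪sel u, sel u'⟫]

def tw : Fin 6 → Bool := ![true, false, true, true, false, true]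

def gl (a : Bool × Fin 6) : Lb := (a.2.val, xor a.1 (tw a.2))

def m0 : List (Bool × Fin 6) := [(true, 0), (true, 1), (true, 2), (false, 3), (false, 4), (false, 5)]

theorem gl_inj : Function.Injective gl := by decide

theorem srt_perm (Θ : Co Lb) {l l' : List Lb} (h : l.Perm l') : srt Θ l = srt Θ l' := by
  simp only [srt, (h.map Prod.fst).nodup_iff]
  split_ifs with h1
  · congr 1
    apply List.Perm.eq_of_pairwise (le := fun x y : Lb => x.1 < y.1)
    · intro a b _ _ h1 h2; omega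
    · exact sorted_strict ((h.map Prod.fst).nodup_iff.2 h1)
    · exact sorted_strict h1
    · exact (List.perm_insertionSort _ _).trans (h.trans (List.perm_insertionSort _ _).symm)
  · rfl

theorem pos_perm {X : Type*} {l l' : List (Bool × X)} (h : l.Perm l') :
    (pos l).Perm (pos l') ∧ (neg l).Perm (neg l') := by
  induction h with
  | nil => exact ⟨.refl _, .refl _⟩
  | cons x _ ih => rcases x with ⟨_ | _, x⟩ <;> simp [pos, neg, ih]
  | swap x y l =>
    rcases x with ⟨_ | _, x⟩ <;> rcases y with ⟨_ | _, y⟩ <;> simp [pos, neg, List.Perm.swap]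
  | trans _ _ h1 h2 => exact ⟨h1.1.trans h2.1, h1.2.trans h2.2⟩

theorem chi_perm {α : Type*} [DecidableEq α] (S : Finset α) {m m' : List α} (h : m.Perm m') :
    chi S m = chi S m' := by
  simp only [chi_eq, h.nodup_iff, List.toFinset_eq_of_perm _ _ h]

theorem top_eval {m : List (Bool × Fin 6)} (hm : m.length = 6) :
    srt (alt false) (m.map gl) = chi {0, 1, 2} (pos m) * chi {3, 4, 5} (neg m) := by
  have hperm : m0 ⊆ m → m0.Perm m := fun h =>
    (List.subperm_of_subset (by decide) h).perm_of_length_le (by rw [hm]; rfl)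
  by_cases h : m0.Perm m
  · rw [← srt_perm _ (h.map gl), ← chi_perm _ (pos_perm h).1, ← chi_perm _ (pos_perm h).2]
    decide
  · have e1 : srt (alt false) (m.map gl) = 0 := by
      by_contra hne
      apply h
      apply hperm
      simp only [srt] at hne
      split_ifs at hne with h1
      swap
      · exact absurd rfl hne
      have hs := sorted_strict h1
      have hp := List.perm_insertionSort kle (m.map gl)
      have hlen : ((m.map gl).insertionSort kle).length = 6 := by simp [hm]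
      have hlt : ∀ x ∈ (m.map gl).insertionSort kle, x.1 < 6 := by
        intro x hx
        obtain ⟨a, -, rfl⟩ := List.mem_map.1 (hp.subset hx)
        exact a.2.2
      have hkey : (m.map gl).insertionSort kle = m0.map gl := by
        generalize (m.map gl).insertionSort kle = s at *
        match s, hlen with
        | [(a0, s0), (a1, s1), (a2, s2), (a3, s3), (a4, s4), (a5, s5)], _ =>
          simp only [List.pairwise_cons, List.mem_cons, List.not_mem_nil, or_false,
            forall_eq_or_imp, forall_eq] at hs hlt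
          obtain rfl : a0 = 0 := by omega
          obtain rfl : a1 = 1 := by omega
          obtain rfl : a2 = 2 := by omega
          obtain rfl : a3 = 3 := by omega
          obtain rfl : a4 = 4 := by omega
          obtain rfl : a5 = 5 := by omega
          revert hne
          clear hp
          revert s0 s1 s2 s3 s4 s5
          decide
      intro a ha
      have : gl a ∈ m.map gl := hp.subset (by rw [hkey]; exact List.mem_map_of_mem ha)
      obtain ⟨b, hb, e⟩ := List.mem_map.1 this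
      rwa [← gl_inj e]
    have e2 : chi {0, 1, 2} (pos m) * chi {3, 4, 5} (neg m) = 0 := by
      by_contra hne
      apply h
      apply hperm
      have h1 := chi_mem (left_ne_zero_of_mul hne)
      have h2 := chi_mem (right_ne_zero_of_mul hne)
      simp only [mem_pos, mem_neg] at h1 h2
      intro a ha
      simp only [m0, List.mem_cons, List.not_mem_nil, or_false] at ha
      rcases ha with rfl | rfl | rfl | rfl | rfl | rfl
      · exact (h1 _).1 (by decide)
      · exact (h1 _).1 (by decide)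
      · exact (h1 _).1 (by decide)
      · exact (h2 _).1 (by decide)
      · exact (h2 _).1 (by decide)
      · exact (h2 _).1 (by decide)
    rw [e1, e2]

theorem pos_map {X Y : Type*} (c : X → Y) (l : List (Bool × X)) :
    pos (l.map (Prod.map id c)) = (pos l).map c ∧ neg (l.map (Prod.map id c)) = (neg l).map c := by
  induction l with
  | nil => exact ⟨rfl, rfl⟩
  | cons x l ih => rcases x with ⟨_ | _, x⟩ <;> simp [pos, neg, ih]

/-- support condition of the matrix cycle -/
def NO {E : Type*} [NormedAddCommGroup E] [InnerProductSpace ℝ E] (ε : ℝ)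
    (l : List (Bool × E)) : Prop :=
  (∀ v ∈ pos l, ‖v‖ = 1) ∧ (∀ v ∈ neg l, ‖v‖ = 1) ∧ ∀ v ∈ pos l, ∀ w ∈ neg l, |⟪v, w⟫| ≤ ε

theorem matrixCycle {ε : ℝ} (hε : 0 < ε) :
    ∃ Z : Ch (Bool × Eu 3), Supp (fun l => l.length = 6 ∧ NO ε l) Z ∧ IsCyc Z ∧
      ∀ (c : Eu 3 → Fin 6) (δ : ℝ), Valid c δ → ε < δ →
        Z (jn fun p n => chi {0, 1, 2} (p.map c) * chi {3, 4, 5} (n.map c)) = 1 := by
  obtain ⟨Z, hZ, hc, hk⟩ := kyfan 6 (ε := ε / 2592) (by positivity)
  refine ⟨Z.push fun u => (sg u, sel u), hZ.push _ ?_, hc.push _, ?_⟩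
  · rintro l ⟨h1, h2, h3⟩
    refine ⟨by simp [h1], ?_, ?_, ?_⟩
    · intro v hv
      obtain ⟨u, hu, e⟩ := List.mem_map.1 (mem_pos.1 hv)
      rw [← (Prod.mk.inj e).2]
      exact (sel_spec (h2 u hu)).1
    · intro v hv
      obtain ⟨u, hu, e⟩ := List.mem_map.1 (mem_neg.1 hv)
      rw [← (Prod.mk.inj e).2]
      exact (sel_spec (h2 u hu)).1
    · intro v hv w hw
      obtain ⟨u, hu, e⟩ := List.mem_map.1 (mem_pos.1 hv)
      obtain ⟨u', hu', e'⟩ := List.mem_map.1 (mem_neg.1 hw)
      rw [← (Prod.mk.inj e).2, ← (Prod.mk.inj e').2]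
      have := near_orth (h2 u hu) (h2 u' hu') (Prod.mk.inj e).1 (Prod.mk.inj e').1
      linarith [h3 u hu u' hu']
  · intro c δ hv hδ
    rw [← hk (fun u => gl (sg u, c (sel u))), Ch.push_apply]
    · apply hZ.congr
      rintro l ⟨h1, -, -⟩
      have e : l.map (fun u => gl (sg u, c (sel u))) =
          ((l.map fun u => (sg u, sel u)).map (Prod.map id c)).map gl := by
        simp only [List.map_map]; rfl
      rw [e, top_eval (by simp [h1]), (pos_map c _).1, (pos_map c _).2]
      rfl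
    · intro u hu
      simp only [gl, flp, sel_neg, sg_neg hu]
      cases sg u <;> cases tw (c (sel u)) <;> rfl
    · intro u hu u' hu' hd he
      have e : c (sel u') = c (sel u) := Fin.ext he
      have hs := hv.sep _ _ (sel_spec hu').1 (sel_spec hu).1 e
      have : sg u' = sg u := by
        by_contra hne
        cases h1 : sg u <;> cases h2 : sg u' <;> simp only [h1, h2, not_true] at hne
        · have := near_orth hu' hu h2 h1
          rw [norm_sub_rev] at this
          linarith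
        · have := near_orth hu hu' h1 h2
          rw [real_inner_comm] at this
          linarith
      rw [e, this]

end Vale.Agent.P052
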