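import Vale.Agent.P052.Matrix
import Vale.Agent.P052.Circle

/-! Six-colourings of the projective plane. -/

namespace Vale.Agent.P052

open scoped RealInnerProductSpace

section

variable {E : Type*} [NormedAddCommGroup E] [InnerProductSpace ℝ E]

theorem dim3 [FiniteDimensional ℝ E] (hE : Module.finrank ℝ E = 3) {v1 v2 u1 u2 : E}
    (h1 : ‖v1‖ = 1) (h2 : ‖v2‖ = 1) (h3 : ‖u1‖ = 1) (h4 : ‖u2‖ = 1) {η : ℝ} (hη : 0 ≤ η)
    (a1 : |⟪v1, u1⟫| ≤ η ^ 2 / 4) (a2 : |⟪v1, u2⟫| ≤ η ^ 2 / 4) (a3 : |⟪v2, u1⟫| ≤ η ^ 2 / 4)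
    (a4 : |⟪v2, u2⟫| ≤ η ^ 2 / 4) : ld v1 v2 ≤ η ∨ ld u1 u2 ≤ η := by
  by_contra hc
  push Not at hc
  have e1 := ld_sq_le h1 h2
  have e2 := ld_sq_le h3 h4
  have f1 : η ^ 2 < ld v1 v2 ^ 2 := by gcongr; exact hc.1
  have f2 : η ^ 2 < ld u1 u2 ^ 2 := by gcongr; exact hc.2
  have hli : ¬ LinearIndependent ℝ ![v1, v2, u1, u2] := fun h => by
    have := h.fintype_card_le_finrank
    rw [hE] at this
    simp at this
  obtain ⟨g, hg, i, hi⟩ := Fintype.not_linearIndependent_iff.1 hli
  simp only [Fin.sum_univ_four, Matrix.cons_val_zero, Matrix.cons_val_one, Matrix.cons_val] at hg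
  have hw : g 0 • v1 + g 1 • v2 = -(g 2 • u1 + g 3 • u2) := by
    rw [eq_neg_iff_add_eq_zero, ← add_assoc]; exact hg
  have w1 : ‖g 0 • v1 + g 1 • v2‖ ^ 2 = g 0 ^ 2 + g 1 ^ 2 + 2 * (g 0 * g 1 * ⟪v1, v2⟫) := by
    rw [norm_add_sq_real, norm_smul, norm_smul, h1, h2, real_inner_smul_left, real_inner_smul_right]
    simp only [Real.norm_eq_abs, mul_one, sq_abs]; ring
  have w2 : ‖g 0 • v1 + g 1 • v2‖ ^ 2 = g 2 ^ 2 + g 3 ^ 2 + 2 * (g 2 * g 3 * ⟪u1, u2⟫) := by
    rw [hw, norm_neg, norm_add_sq_real, norm_smul, norm_smul, h3, h4, real_inner_smul_left,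
      real_inner_smul_right]
    simp only [Real.norm_eq_abs, mul_one, sq_abs]; ring
  have w3 : ‖g 0 • v1 + g 1 • v2‖ ^ 2 = -(g 0 * g 2 * ⟪v1, u1⟫ + g 0 * g 3 * ⟪v1, u2⟫ +
      g 1 * g 2 * ⟪v2, u1⟫ + g 1 * g 3 * ⟪v2, u2⟫) := by
    have : ‖g 0 • v1 + g 1 • v2‖ ^ 2 = ⟪g 0 • v1 + g 1 • v2, -(g 2 • u1 + g 3 • u2)⟫ := by
      rw [← hw, real_inner_self_eq_norm_sq]
    rw [this]
    simp only [inner_neg_right, inner_add_left, inner_add_right, real_inner_smul_left,
      real_inner_smul_right]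
    ring
  have k : ∀ x y t r : ℝ, |t| ≤ r → -(r * (x ^ 2 + y ^ 2) / 2) ≤ x * y * t := by
    intro x y t r ht
    have h1 : |x * y * t| ≤ |x| * |y| * r := by rw [abs_mul, abs_mul]; gcongr
    have h2 : |x| * |y| ≤ (x ^ 2 + y ^ 2) / 2 := by
      nlinarith [sq_nonneg (|x| - |y|), sq_abs x, sq_abs y]
    have h3 : 0 ≤ r := (abs_nonneg _).trans ht
    have h4 := neg_abs_le (x * y * t)
    nlinarith
  have k1 := k (g 0) (g 2) _ _ a1
  have k2 := k (g 0) (g 3) _ _ a2
  have k3 := k (g 1) (g 2) _ _ a3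
  have k4 := k (g 1) (g 3) _ _ a4
  have k5 := k (g 0) (g 1) _ _ (le_refl |⟪v1, v2⟫|)
  have k6 := k (g 2) (g 3) _ _ (le_refl |⟪u1, u2⟫|)
  have hpos : 0 < g 0 ^ 2 + g 1 ^ 2 + (g 2 ^ 2 + g 3 ^ 2) := by
    have : 0 < g i ^ 2 := by positivity
    fin_cases i <;> simp only [Fin.zero_eta, Fin.mk_one, Fin.reduceFinMk] at this <;>
      linarith [sq_nonneg (g 0), sq_nonneg (g 1), sq_nonneg (g 2), sq_nonneg (g 3)]
  have p1 : 0 ≤ g 0 ^ 2 + g 1 ^ 2 := by positivity
  have p2 : 0 ≤ g 2 ^ 2 + g 3 ^ 2 := by positivity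
  generalize ‖g 0 • v1 + g 1 • v2‖ ^ 2 = W at *
  have q1 : η ^ 2 / 2 < 1 - |⟪v1, v2⟫| := by linarith
  have q2 : η ^ 2 / 2 < 1 - |⟪u1, u2⟫| := by linarith
  generalize |⟪v1, v2⟫| = s at *
  generalize |⟪u1, u2⟫| = t at *
  have r1 : (1 - s) * (g 0 ^ 2 + g 1 ^ 2) ≤ W := by linarith
  have r2 : (1 - t) * (g 2 ^ 2 + g 3 ^ 2) ≤ W := by linarith
  have r3 : W ≤ η ^ 2 / 4 * (g 0 ^ 2 + g 1 ^ 2 + (g 2 ^ 2 + g 3 ^ 2)) := by linarith
  generalize g 0 ^ 2 + g 1 ^ 2 = A at *
  generalize g 2 ^ 2 + g 3 ^ 2 = B at *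
  have s1 := mul_le_mul_of_nonneg_right q1.le p1
  have s2 := mul_le_mul_of_nonneg_right q2.le p2
  rcases p1.eq_or_lt with p | p
  · have : 0 < B := by linarith
    have s3 := mul_lt_mul_of_pos_right q2 this
    linarith
  · have s3 := mul_lt_mul_of_pos_right q1 p
    linarith

/-- pairwise close as lines -/
def PC (η : ℝ) (p : List E) : Prop := ∀ a ∈ p, ∀ b ∈ p, ld a b ≤ η

omit [InnerProductSpace ℝ E] in
theorem PC.subset {η : ℝ} {p q : List E} (h : PC η p) (e : q ⊆ p) : PC η q :=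
  fun a ha b hb => h a (e ha) b (e hb)

theorem pos_subset {X : Type*} {l m : List (Bool × X)} (h : m ⊆ l) : pos m ⊆ pos l :=
  fun _ hv => mem_pos.2 (h (mem_pos.1 hv))

theorem neg_subset {X : Type*} {l m : List (Bool × X)} (h : m ⊆ l) : neg m ⊆ neg l :=
  fun _ hv => mem_neg.2 (h (mem_neg.1 hv))

theorem NO.subset {ε : ℝ} {l m : List (Bool × E)} (h : NO ε l) (e : m ⊆ l) : NO ε m :=
  ⟨fun v hv => h.1 v (pos_subset e hv), fun v hv => h.2.1 v (neg_subset e hv),
    fun v hv w hw => h.2.2 v (pos_subset e hv) w (neg_subset e hw)⟩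

theorem NO.pc [FiniteDimensional ℝ E] (hE : Module.finrank ℝ E = 3) {η : ℝ} (hη : 0 ≤ η)
    {l : List (Bool × E)} (h : NO (η ^ 2 / 4) l) (hp : ¬ PC η (pos l)) : PC η (neg l) := by
  intro a ha b hb
  by_contra hc
  apply hp
  intro v hv w hw
  exact (dim3 hE (h.1 v hv) (h.1 w hw) (h.2.1 a ha) (h.2.1 b hb) hη (h.2.2 v hv a ha)
    (h.2.2 v hv b hb) (h.2.2 w hw a ha) (h.2.2 w hw b hb)).resolve_right hc

noncomputable def phi2 : Co E
  | [a, b] => phi a b
  | _ => 0

noncomputable def psi : Co E := cobd phi2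

theorem psi_three (a b d : E) : psi [a, b, d] = phi b d + phi a d + phi a b := by
  simp only [psi, cobd_cons, cobd_nil, phi2, add_zero, add_assoc]

theorem psi_length {n : List E} (h : psi n ≠ 0) : n.length = 3 := by
  by_contra hc
  apply h
  apply cobd_eq_zero
  intro m _ hm
  match m, hm with
  | [], _ => rfl
  | [_], _ => rfl
  | [_, _], hm => exact absurd hm.symm hc
  | _ :: _ :: _ :: _, _ => rfl

theorem psi_pc {n : List E} {η : ℝ} (hη : η ≤ 1 / 2) (hu : ∀ v ∈ n, ‖v‖ = 1) (h : PC η n) :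
    psi n = 0 := by
  by_contra hc
  match n, psi_length hc with
  | [a, b, d], _ =>
    apply hc
    rw [psi_three]
    exact phi_cocycle (hu a (by simp)) (hu b (by simp)) (hu d (by simp))
      ((h a (by simp) b (by simp)).trans hη) ((h a (by simp) d (by simp)).trans hη)

theorem face_of_chi {α : Type*} [DecidableEq α] {c : E → α} {δ η : ℝ} (hc : Valid c δ)
    (hη : η ≤ δ / 2) {S : Finset α} (hS : S.Nonempty) {l : List E} (hl : ∀ v ∈ l, ‖v‖ = 1)
    (hp : PC η l) (h : chi S (l.map c) ≠ 0) : Face c δ (· ∈ S) := by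
  obtain ⟨i, hi⟩ := hS
  obtain ⟨v, hv, -⟩ := List.mem_map.1 ((chi_mem h i).1 hi)
  exact ⟨v, wit_of_chi hc hl h (hl v hv) fun w hw => (hp v hv w hw).trans hη⟩

theorem no_two_faces [FiniteDimensional ℝ E] (hE : Module.finrank ℝ E = 3) {α : Type*}
    {c : E → α} {δ : ℝ} (hδ : 0 < δ) {A B : α → Prop} (hA : Face c δ A) (hB : Face c δ B)
    (h : ∀ i, A i ∨ B i) : False := by
  obtain ⟨x, hx⟩ := hA
  obtain ⟨x', hx'⟩ := hB
  obtain ⟨y, hy, ho⟩ := exists_unit_orth (k := 2) (by omega) ![x, x']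
  have h0 : ⟪x, y⟫ = 0 := ho 0
  have h1 : ⟪x', y⟫ = 0 := ho 1
  rcases h (c y) with e | e
  · have := hx.2 y hy e
    rw [h0, abs_zero] at this; linarith
  · have := hx'.2 y hy e
    rw [h1, abs_zero] at this; linarith

theorem no_big_face [FiniteDimensional ℝ E] (hE : Module.finrank ℝ E = 3) {α : Type*}
    {c : E → α} {δ : ℝ} (hc : Valid c δ) (hδ : 0 < δ) {A : α → Prop} (hA : Face c δ A) (p q : α)
    (h : ∀ i, A i ∨ i = p ∨ i = q) : False := by
  obtain ⟨x, hx⟩ := hA
  obtain ⟨b, hb⟩ := exists_onb hE hx.1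
  have he := b.orthonormal.1 1
  have hf := b.orthonormal.1 2
  have hef : ⟪b 1, b 2⟫ = 0 := b.orthonormal.2 (by decide)
  refine two_colors hc hδ he hf hef p q fun θ => (h _).resolve_left fun hh => ?_
  have := hx.2 _ (gc_norm he hf hef θ) hh
  rw [← hb, gc_orth (b.orthonormal.2 (by decide)) (b.orthonormal.2 (by decide)), abs_zero] at this
  linarith

end

open Classical in
theorem wall {η : ℝ} (hη : 0 ≤ η) {Z : Ch (Bool × Eu 3)}
    (hZ : Supp (fun l => l.length = 6 ∧ NO (η ^ 2 / 4) l) Z) (hc : IsCyc Z)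
    (Θ : Co (Bool × Eu 3)) (h : ∀ m, NO (η ^ 2 / 4) m → PC η (neg m) → Θ m = 0) :
    Z (fun l => if PC η (pos l) then cobd Θ l else 0) = 0 := by
  refine Eq.trans ?_ (hc Θ)
  apply hZ.congr
  rintro l ⟨-, hl⟩
  split_ifs with hp
  · rfl
  · symm
    apply cobd_eq_zero
    intro m hm _
    exact h m (hl.subset hm.subset) ((hl.pc (by simp) hη hp).subset (neg_subset hm.subset))

noncomputable def etaC (c : Eu 3 → Fin 6) (s : Eu 3 → Z2) : Co (Eu 3)
  | [y, y'] => rho c y y' + s y + s y'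
  | _ => 0

theorem etaC_length {c : Eu 3 → Fin 6} {s : Eu 3 → Z2} {n : List (Eu 3)} (h : n.length ≠ 2) :
    etaC c s n = 0 := by
  match n, h with
  | [], _ => rfl
  | [_], _ => rfl
  | [_, _], h => exact absurd rfl h
  | _ :: _ :: _ :: _, _ => rfl

open Classical in
theorem rp2_key {δ : ℝ} (hδ : 0 < δ) (hδ1 : δ ≤ 1) {Z : Ch (Bool × Eu 3)}
    (hZ : Supp (fun l => l.length = 6 ∧ NO ((δ / 200) ^ 2 / 4) l) Z) (hcy : IsCyc Z)
    {c : Eu 3 → Fin 6} (hc : Valid c δ) (hno : ¬ Face c δ (· ∈ ({3, 4, 5} : Finset (Fin 6)))) :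
    Z (jn fun p n => if PC (δ / 200) p then chi {0, 1, 2} (p.map c) * psi n else 0) =
    Z (jn fun p n => if PC (δ / 200) p then
      chi {0, 1, 2} (p.map c) * chi {3, 4, 5} (n.map c) else 0) := by
  have hE : Module.finrank ℝ (Eu 3) = 3 := by simp
  have hε : (δ / 200) ^ 2 / 4 ≤ δ / 200 := by nlinarith
  have h2' : (2 : Z2) = 0 := rfl
  have : ∀ x : Eu 3, ∃ s : Eu 3 → Z2, Wit c δ (· ∈ ({0, 1, 2} : Finset (Fin 6))) x →
      ∀ y y', ‖y‖ = 1 → ‖y'‖ = 1 → |⟪x, y⟫| ≤ δ / 100 → |⟪x, y'⟫| ≤ δ / 100 →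
      ld y y' ≤ 4 * (δ / 100) → s y + s y' = rho c y y' := by
    intro x
    by_cases hx : Wit c δ (· ∈ ({0, 1, 2} : Finset (Fin 6))) x
    · obtain ⟨s, hs⟩ := band hE hc hδ hδ1 hno hx
      exact ⟨s, fun _ => hs⟩
    · exact ⟨0, fun h => absurd h hx⟩
  choose sx hsx using this
  have hsx2 : ∀ a b : Eu 3, Wit c δ (· ∈ ({0, 1, 2} : Finset (Fin 6))) a →
      Wit c δ (· ∈ ({0, 1, 2} : Finset (Fin 6))) b → ld a b ≤ δ / 200 → ∀ y y', ‖y‖ = 1 →
      ‖y'‖ = 1 → |⟪a, y⟫| ≤ δ / 200 → |⟪a, y'⟫| ≤ δ / 200 →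
      sx a y + sx b y = sx a y' + sx b y' := by
    intro a b ha hb hab y y' hy hy' h1 h2
    refine band_const hE (fun y => sx a y + sx b y) ha.1 (w := δ / 200) (by positivity) ?_
      hy hy' h1 h2
    intro z z' hz hz' k1 k2 k3
    have e1 := hsx a ha z z' hz hz' (by linarith) (by linarith) (by linarith)
    have e2 := hsx b hb z z' hz hz'
      (by have := abs_inner_le_ld hz b a; rw [ld_comm] at this; linarith)
      (by have := abs_inner_le_ld hz' b a; rw [ld_comm] at this; linarith) (by linarith)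
    linear_combination e1 + e2 + (rho c z z' - sx a z' - sx b z') * h2'
  have hW := wall (by positivity) hZ hcy (jn fun p n => if PC (δ / 200) p then
    chi {0, 1, 2} (p.map c) * etaC c (sx (p.headD 0)) n else 0) (by
      intro m hm hn
      simp only [jn]
      split_ifs with hp
      swap
      · rfl
      by_contra hne
      have h1 := left_ne_zero_of_mul hne
      have h2 := right_ne_zero_of_mul hne
      have hl : (pos m).length = 3 := by simpa using chi_length h1
      have hl2 : (neg m).length = 2 := by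
        by_contra hh; exact h2 (etaC_length hh)
      obtain ⟨hu1, hu2, ho⟩ := hm
      generalize pos m = P at *
      generalize neg m = N at *
      match P, hl, N, hl2 with
      | [a, b, d], _, [y, y'], _ =>
        have hw := wit_of_chi hc hu1 h1 (hu1 a (by simp))
          fun v hv => (hp a (by simp) v hv).trans (by linarith)
        have := hsx a hw y y' (hu2 y (by simp)) (hu2 y' (by simp))
          ((ho a (by simp) y (by simp)).trans (by linarith))
          ((ho a (by simp) y' (by simp)).trans (by linarith))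
          ((hn y (by simp) y' (by simp)).trans (by linarith))
        apply h2
        simp only [List.headD_cons, etaC]
        linear_combination this + (rho c y y') * h2')
  have hsum : Z (jn fun p n => if PC (δ / 200) p then chi {0, 1, 2} (p.map c) * psi n else 0) +
    Z (jn fun p n => if PC (δ / 200) p then
      chi {0, 1, 2} (p.map c) * chi {3, 4, 5} (n.map c) else 0) = 0 := by
    refine Eq.trans ?_ hW
    rw [← ch_add]
    apply hZ.congr
    rintro l ⟨hlen, hu1, hu2, ho⟩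
    rw [← length_pos_neg] at hlen
    simp only [cobd_jn, jn]
    generalize pos l = P at *
    generalize neg l = N at *
    split_ifs with hp
    swap
    · simp
    have t1 : cobd (fun p => if PC (δ / 200) p then
        chi {0, 1, 2} (p.map c) * etaC c (sx (p.headD 0)) N else 0) P = 0 := by
      rw [cobd_congr (Φ := fun p => chi {0, 1, 2} (p.map c) * etaC c (sx (p.headD 0)) N)
        fun m hm _ => if_pos (hp.subset hm.subset)]
      by_cases hN : N.length = 2
      swap
      · apply cobd_eq_zero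
        intro m _ _
        rw [etaC_length hN, mul_zero]
      have hP : P.length = 4 := by omega
      match P, hP, N, hN with
      | [a, b, d, e], _, [y, y'], _ =>
        have z1 : cobd (chi ({0, 1, 2} : Finset (Fin 6))) ([a, b, d, e].map c) = 0 := by
          apply cobd_chi_eq_zero
          intro i hi
          by_contra hne
          have hf := face_of_chi hc (by linarith) (by simp) hu1 hp hne
          have : ∀ i : Fin 6, i ∉ ({0, 1, 2} : Finset (Fin 6)) → ∃ p q : Fin 6, ∀ j : Fin 6,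
            j ∈ insert i ({0, 1, 2} : Finset (Fin 6)) ∨ j = p ∨ j = q := by decide
          obtain ⟨p, q, hpq⟩ := this i hi
          exact no_big_face hE hc hδ hf p q hpq
        simp only [List.map_cons, List.map_nil, cobd_cons, cobd_nil, add_zero, List.headD_cons,
          etaC] at z1 ⊢
        by_cases hx : chi ({0, 1, 2} : Finset (Fin 6)) [c b, c d, c e] = 0
        · rw [hx] at z1 ⊢
          linear_combination (rho c y y' + sx a y + sx a y') * z1
        · have hall : ∀ v ∈ [b, d, e], ‖v‖ = 1 := fun v hv => hu1 v (List.mem_cons_of_mem _ hv)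
          have wa := wit_of_chi hc hall hx (hu1 a (by simp))
            fun v hv => (hp a (by simp) v (List.mem_cons_of_mem _ hv)).trans (by linarith)
          have wb := wit_of_chi hc hall hx (hu1 b (by simp))
            fun v hv => (hp b (by simp) v (List.mem_cons_of_mem _ hv)).trans (by linarith)
          have := hsx2 a b wa wb (hp a (by simp) b (by simp)) y y' (hu2 y (by simp))
            (hu2 y' (by simp)) ((ho a (by simp) y (by simp)).trans hε)
            ((ho a (by simp) y' (by simp)).trans hε)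
          linear_combination (rho c y y' + sx a y + sx a y') * z1 +
            chi {0, 1, 2} [c b, c d, c e] * this + chi {0, 1, 2} [c b, c d, c e] *
            (sx b y' - sx a y) * h2'
    rw [t1, zero_add, cobd_mul]
    by_cases hx : chi ({0, 1, 2} : Finset (Fin 6)) (P.map c) = 0
    · simp [hx]
    have hP : P.length = 3 := by simpa using chi_length hx
    have hN : N.length = 3 := by omega
    match P, hP, N, hN with
    | [a, b, d], _, [y, y', y''], _ =>
      have wa := wit_of_chi hc hu1 hx (hu1 a (by simp))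
        fun v hv => (hp a (by simp) v hv).trans (by linarith)
      have z2 := cobd_chi ({3, 4, 5} : Finset (Fin 6)) {3, 4} (m := [y, y', y''].map c) (by
        intro i hi
        obtain ⟨v, hv, rfl⟩ := List.mem_map.1 hi
        have : c v ∉ ({0, 1, 2} : Finset (Fin 6)) := fun hh => by
          have := wa.2 v (hu2 v hv) hh
          linarith [ho a (by simp) v hv]
        revert this
        generalize c v = j
        revert j
        decide)
      rw [show ({3, 4, 5} : Finset (Fin 6)) \ {3, 4} = {5} by decide, Finset.sum_singleton,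
        show insert 5 ({3, 4} : Finset (Fin 6)) = {3, 4, 5} by decide] at z2
      rw [psi_three, ← z2]
      simp only [List.map_cons, List.map_nil, cobd_cons, cobd_nil, add_zero, List.headD_cons,
        etaC, rho]
      linear_combination -(chi {0, 1, 2} [c a, c b, c d] * (sx a y + sx a y' + sx a y'')) * h2'
  linear_combination hsum - (Z (jn fun p n => if PC (δ / 200) p then
      chi {0, 1, 2} (p.map c) * chi {3, 4, 5} (n.map c) else 0)) * h2'

open Classical in
theorem rp2 {δ : ℝ} (hδ : 0 < δ) (hδ1 : δ ≤ 1) :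
    ∃ ζ : Ch (Eu 3), Supp (fun p => p.length = 3 ∧ (∀ v ∈ p, ‖v‖ = 1) ∧ PC (δ / 200) p) ζ ∧
      IsCyc ζ ∧ ∀ c : Eu 3 → Fin 6, Valid c δ →
        ζ (fun p => chi {0, 1, 2} (p.map c)) + ζ (fun p => chi {3, 4, 5} (p.map c)) = 1 := by
  have hE : Module.finrank ℝ (Eu 3) = 3 := by simp
  have hε : (δ / 200) ^ 2 / 4 < δ := by nlinarith
  obtain ⟨Z, hZ, hcy, hk⟩ := matrixCycle (ε := (δ / 200) ^ 2 / 4) (by positivity)
  let ζ : Ch (Eu 3) := Z.comp
    (fun Θ => jn fun p n => if PC (δ / 200) p then Θ p * psi n else 0) (by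
      intro Θ Φ l
      simp only [jn]
      split_ifs
      · ring
      · rfl)
  have hζ : Supp (fun p => p.length = 3 ∧ (∀ v ∈ p, ‖v‖ = 1) ∧ PC (δ / 200) p) ζ := by
    intro Θ h
    apply hZ
    rintro l ⟨h1, h2⟩
    simp only [jn]
    split_ifs with hp
    swap
    · rfl
    by_cases hn : psi (neg l) = 0
    · rw [hn, mul_zero]
    · have := psi_length hn
      have := length_pos_neg l
      rw [h _ ⟨by omega, h2.1, hp⟩, zero_mul]
  have hA : ∀ c : Eu 3 → Fin 6, Valid c δ → ¬ Face c δ (· ∈ ({3, 4, 5} : Finset (Fin 6))) →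
      ζ (fun p => chi {0, 1, 2} (p.map c)) = 1 := by
    intro c hc hno
    rw [← hk c δ hc hε]
    refine (rp2_key hδ hδ1 hZ hcy hc hno).trans (hZ.congr ?_)
    rintro l ⟨-, hl⟩
    simp only [jn]
    split_ifs with hp
    · rfl
    · symm
      by_contra hne
      exact hno (face_of_chi hc (by linarith) (by simp) hl.2.1 (hl.pc hE (by positivity) hp)
        (right_ne_zero_of_mul hne))
  have hB : ∀ (c : Eu 3 → Fin 6) (S : Finset (Fin 6)), S.Nonempty → Valid c δ →
      ¬ Face c δ (· ∈ S) → ζ (fun p => chi S (p.map c)) = 0 := by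
    intro c S hS hc hno
    apply hζ
    rintro p ⟨-, h1, h2⟩
    by_contra hne
    exact hno (face_of_chi hc (by linarith) hS h1 h2 hne)
  refine ⟨ζ, hζ, ?_, ?_⟩
  · intro Θ
    have := wall (by positivity) hZ hcy (jn fun p n => Θ p * psi n) (by
      intro m hm hn
      simp only [jn]
      rw [psi_pc (by linarith) hm.2.1 hn, mul_zero])
    refine Eq.trans ?_ this
    apply hZ.congr
    intro l _
    simp only [jn, cobd_jn]
    split_ifs
    · rw [cobd_mul, psi, cobd_cobd, mul_zero, add_zero, mul_comm, ← cobd_mul]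
      congr 1
      funext p
      ring
    · rfl
  · intro c hc
    by_cases h : Face c δ (· ∈ ({3, 4, 5} : Finset (Fin 6)))
    · have hno : ¬ Face c δ (· ∈ ({0, 1, 2} : Finset (Fin 6))) :=
        fun h' => no_two_faces hE hδ h h' (by decide)
      rw [hB c _ (by simp) hc hno, zero_add]
      have hinj : Function.Injective (fun i : Fin 6 => i + 3) := by decide
      have hv : Valid (fun v => c v + 3) δ :=
        ⟨fun v => by rw [hc.even], fun v w hv hw e => hc.sep v w hv hw (hinj e)⟩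
      rw [← hA _ hv]
      · congr 1
        funext p
        rw [← chi_map hinj, List.map_map]
        congr 1
      · rintro ⟨x, hx⟩
        refine hno ⟨x, hx.1, fun y hy hh => hx.2 y hy ?_⟩
        have : ∀ j ∈ ({0, 1, 2} : Finset (Fin 6)), j + 3 ∈ ({3, 4, 5} : Finset (Fin 6)) := by decide
        exact this _ hh
    · rw [hA c hc h, hB c _ (by simp) hc h, add_zero]

end Vale.Agent.P052
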